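import Vale.Agent.P159.TM.H285.Up
import Vale.Agent.P159.TM.H60.Arm

/-!
# P159, T1, row R6: the arm of the torus law in terms of joined boxes
-/

open scoped ENNReal
open Finset

set_option linter.unusedSectionVars false

namespace Vale.Agent.P159.TM.H285

open Vale.Agent.P145.FB
open Vale.Agent.P159.TM.H60
open Vale.Agent.P159.TM.H459 (tS tT dir)
open Vale.Agent.P159.TM.H504 (Bx)
open Vale.Agent.P159.TM.H77 (pt)
open Vale.Agent.P159.TM.H576 (Ex ind plus)

variable {N : ℕ} [NeZero N] {b : ℝ} {ξ : ℕ}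

/-- the same in the letters of the two-copy law -/
theorem out_of_joins_plus (hb : 0 ≤ b) (f : Spec.V N → ℝ) (x : Spec.V N → ℤ × ℤ)
    (om : Finset (Spec.E N)) {t : ℕ} (ht : 1 ≤ t) (hN : 6 * t ≤ N)
    (h : Joins tS tT (plus (Spec.σ2 N b ξ hb f) x om) ((Bx 0 0 t).image (pt N))
      ((Bx (3 * t) 0 t).image (pt N))) :
    H121.Out t (H426.Lf (fun v => (x v).1 - (x v).2) (plus (Spec.σ2 N b ξ hb f) x om)) := by
  refine out_of_joins ht hN (fun e he => ?_) h
  unfold plus at he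
  exact (mem_filter.1 he).2

/-- probability of the arm from the unnormalised bound -/
theorem arm_le (hb : 0 < b) (hξ : 0 < ξ) {t : ℕ} (ht : 1 ≤ t) (hN : 6 * t ≤ N) {K : ℝ}
    (hK : 0 < K)
    (h : Ex (Spec.σ2 N b ξ hb.le 0) (fun _ _ => 1) ≤ ENNReal.ofReal K *
      Ex (Spec.σ2 N b ξ hb.le 0) (fun x om => ind (Joins tS tT
        (plus (Spec.σ2 N b ξ hb.le 0) x om) ((Bx 0 0 t).image (pt N))
        ((Bx (3 * t) 0 t).image (pt N))))) :
    1 / K ≤ (H426.ppT N b ξ hb hξ).p (H121.Out t) := by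
  have M := H857.fk_T hb hξ (0 : Spec.V N → ℝ)
  rw [H426.ppT_p]
  unfold H426.pQ
  have h1 : Ex (Spec.σ2 N b ξ hb.le 0) (fun x om => ind (Joins tS tT
      (plus (Spec.σ2 N b ξ hb.le 0) x om) ((Bx 0 0 t).image (pt N))
      ((Bx (3 * t) 0 t).image (pt N)))) ≤ H426.eQ N b ξ hb.le 0 (H121.Out t) :=
    H576.Ex_mono fun x om _ => H576.ind_mono fun hj => out_of_joins_plus hb.le 0 x om ht hN hj
  have h2 : ENNReal.ofReal (1 / K) ≤ H426.eQ N b ξ hb.le 0 (H121.Out t) /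
      Ex (Spec.σ2 N b ξ hb.le 0) (fun _ _ => 1) := by
    rw [ENNReal.le_div_iff_mul_le (Or.inl M.Z0) (Or.inl M.Zt)]
    have h3 := mul_le_mul_right (h.trans (mul_le_mul_right h1 _)) (ENNReal.ofReal (1 / K))
    rw [← mul_assoc, ← ENNReal.ofReal_mul (by positivity), one_div_mul_cancel hK.ne',
      ENNReal.ofReal_one, one_mul] at h3
    exact h3
  have h4 := ENNReal.toReal_mono (H426.quot_ne_top hb.le 0 (H121.Out t)) h2
  rwa [ENNReal.toReal_ofReal (by positivity)] at h4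

end Vale.Agent.P159.TM.H285
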