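import Vale.Agent.P159.TM.H285.RswT

/-!
P159 / A6: the bottom scale (reflected chain) and RSW from easy crossings in a bounded window of
scales at the top.
-/

namespace Vale.Agent.P159.TM.H285

open Vale.Agent.P145.FB Vale.Agent.P153.Topo

/-- connection of two given points -/
def Cn (a b c d x1 x2 y1 y2 : ℤ) (S : Set (ℤ × ℤ)) : Prop :=
  ∃ x y, NC (S ∩ rc a b c d) x y ∧ ((x.1 = x1 ∧ x.2 = x2) ∧ y.1 = y1 ∧ y.2 = y2)

theorem IL_Cn (a b c d x1 x2 y1 y2 : ℤ) : IL (Cn a b c d x1 x2 y1 y2) :=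
  IL_ex _ (rc_bdd a b c d) (fun x y => (x.1 = x1 ∧ x.2 = x2) ∧ y.1 = y1 ∧ y.2 = y2)

theorem Cn_shift (a b c d x1 x2 y1 y2 u v : ℤ) (S : Set (ℤ × ℤ)) :
    Cn a b c d x1 x2 y1 y2 {z | (z.1 + 2 * u, z.2 + 2 * v) ∈ S} ↔
      Cn (a + u) (b + u) (c + v) (d + v) (x1 + 2 * u) (x2 + 2 * v) (y1 + 2 * u) (y2 + 2 * v) S := by
  refine ex_iff (T := fun z => (z.1 + 2 * u, z.2 + 2 * v))
    (T' := fun z => (z.1 + 2 * (-u), z.2 + 2 * (-v))) ?_ (nn_shift u v) (nn_shift (-u) (-v)) ?_ ?_ S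
  · rintro ⟨x, y⟩; ext <;> dsimp only <;> ring
  · rintro ⟨x, y⟩; simp only [mem_rc]; constructor <;> intro h <;> omega
  · rintro ⟨x, y⟩ ⟨x', y'⟩; dsimp only; constructor <;> intro h <;> omega

theorem Cn_reflx (a b c d x1 x2 y1 y2 : ℤ) (S : Set (ℤ × ℤ)) :
    Cn a b c d x1 x2 y1 y2 {z | (-z.1, z.2) ∈ S} ↔ Cn (-b) (-a) c d (-x1) x2 (-y1) y2 S := by
  refine ex_iff (T := fun z => (-z.1, z.2)) (T' := fun z => (-z.1, z.2)) ?_ nn_reflx nn_reflx ?_ ?_ S
  · rintro ⟨x, y⟩; ext <;> dsimp only <;> ring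
  · rintro ⟨x, y⟩; simp only [mem_rc]; constructor <;> intro h <;> omega
  · rintro ⟨x, y⟩ ⟨x', y'⟩; dsimp only; constructor <;> intro h <;> omega

theorem p_Cn_shift (P : PP) (a b c d x1 x2 y1 y2 u v : ℤ) :
    P.p (Cn (a + u) (b + u) (c + v) (d + v) (x1 + 2 * u) (x2 + 2 * v) (y1 + 2 * u) (y2 + 2 * v)) =
      P.p (Cn a b c d x1 x2 y1 y2) := by
  rw [← P.shift u v _ (IL_Cn a b c d x1 x2 y1 y2)]
  congr 1
  funext S
  exact propext (Cn_shift a b c d x1 x2 y1 y2 u v S).symm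

theorem p_Cn_reflx (P : PP) (a b c d x1 x2 y1 y2 : ℤ) :
    P.p (Cn (-b) (-a) c d (-x1) x2 (-y1) y2) = P.p (Cn a b c d x1 x2 y1 y2) := by
  rw [← P.reflx _ (IL_Cn a b c d x1 x2 y1 y2)]
  congr 1
  funext S
  exact propext (Cn_reflx a b c d x1 x2 y1 y2 S).symm

/-- composition of two connections -/
theorem Cn.comp {a b a' b' a'' b'' c d x1 x2 y1 y2 z1 z2 : ℤ} {S : Set (ℤ × ℤ)} (h1 : a'' ≤ a)
    (h2 : b ≤ b'') (h3 : a'' ≤ a') (h4 : b' ≤ b'') (h : Cn a b c d x1 x2 y1 y2 S)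
    (h' : Cn a' b' c d y1 y2 z1 z2 S) : Cn a'' b'' c d x1 x2 z1 z2 S := by
  obtain ⟨x, y, hxy, hx, hy1, hy2⟩ := h
  obtain ⟨y', z, hyz, ⟨hy1', hy2'⟩, hz⟩ := h'
  have e : y' = y := Prod.ext (by omega) (by omega)
  rw [e] at hyz
  refine ⟨x, z, ?_, hx, hz⟩
  exact (NC.mono (Set.inter_subset_inter_right S (rc_mono h1 h2 le_rfl le_rfl)) hxy).trans
    (NC.mono (Set.inter_subset_inter_right S (rc_mono h3 h4 le_rfl le_rfl)) hyz)

theorem Cn.symm {a b c d x1 x2 y1 y2 : ℤ} {S : Set (ℤ × ℤ)} (h : Cn a b c d x1 x2 y1 y2 S) :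
    Cn a b c d y1 y2 x1 x2 S := by
  obtain ⟨x, y, hxy, hx, hy⟩ := h
  exact ⟨y, x, hxy.symm, hy, hx⟩

/-- **the bottom scale**: long thin crossings from one easy crossing of bounded size -/
theorem base (P : PP) {p : ℝ} (hp : 0 < p) (h : p ≤ P.L 100 104) (J : ℕ) :
    ((p / 43682) ^ 2) ^ (J + 1) ≤ P.L (200 * ((J : ℤ) + 1)) 104 := by
  obtain ⟨x, hx⟩ : ∃ x, x = p / 43682 := ⟨_, rfl⟩
  have hx0 : 0 < x := by rw [hx]; positivity
  -- a pair of end points
  obtain ⟨i, j, hij⟩ : ∃ i j : ℕ, x ≤ P.p (Cn 0 100 0 104 0 i 200 j) := by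
    by_contra hcon
    push Not at hcon
    have h1 : P.p (LRc 0 100 0 104) ≤ P.p (fun S => ∃ i : ℕ, i < 208 + 1 ∧
        ∃ j : ℕ, j < 208 + 1 ∧ Cn 0 100 0 104 0 i 200 j S) := by
      refine P.mono _ _ ?_
      rintro S ⟨z, w, hzw, hz, hw⟩
      have hz' := hzw.left_mem.2
      have hw' := hzw.right_mem.2
      rw [mem_rc] at hz' hw'
      refine ⟨z.2.toNat, by omega, w.2.toNat, by omega, z, w, hzw, ⟨by omega, by omega⟩, ?_, ?_⟩
      · omega
      · omega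
    have h2 := un_le P (fun i => fun S => ∃ j : ℕ, j < 208 + 1 ∧ Cn 0 100 0 104 0 i 200 j S) 208
      (x := ((208 : ℕ) + 1) * x) (fun i _ => un_le P (fun j => Cn 0 100 0 104 0 i 200 j) 208
        (fun j _ => (hcon i j).le))
    have h3 : P.p (LRc 0 100 0 104) = P.L 100 104 := rfl
    rw [h3] at h1
    have h4 := h1.trans h2
    push_cast at h4
    have h5 : p = 43682 * x := by rw [hx]; ring
    linarith
  -- one period
  have hm : x ≤ P.p (Cn 100 200 0 104 200 j 400 i) := by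
    have h1 := p_Cn_reflx P 0 100 0 104 0 i 200 j
    have h2 := p_Cn_shift P (-100) (-0) 0 104 (-0) i (-200) j 200 0
    have e : P.p (Cn 100 200 0 104 400 i 200 j) = P.p (Cn 0 100 0 104 0 i 200 j) := by
      rw [← h1, ← h2]
      congr 2 <;> norm_num
    have h3 : P.p (Cn 100 200 0 104 400 i 200 j) ≤ P.p (Cn 100 200 0 104 200 j 400 i) :=
      P.mono _ _ fun S hS => hS.symm
    rw [← e] at hij
    exact hij.trans h3
  have hper : x ^ 2 ≤ P.p (Cn 0 200 0 104 0 i 400 i) := by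
    have := P.fkg2 (T := Cn 0 200 0 104 0 i 400 i) (IL_Cn _ _ _ _ _ _ _ _)
      (IL_Cn _ _ _ _ _ _ _ _) (fun S h1 h2 => Cn.comp le_rfl (by norm_num) (by norm_num) le_rfl
        h1 h2) hx0.le hx0.le hij hm
    calc x ^ 2 = x * x := sq x
      _ ≤ _ := this
  have key : ∀ J : ℕ, (x ^ 2) ^ (J + 1) ≤
      P.p (Cn 0 (200 * ((J : ℤ) + 1)) 0 104 0 i (400 * ((J : ℤ) + 1)) i) := by
    intro J
    induction J with
    | zero => simpa using hper
    | succ J ih =>
      have h1 := p_Cn_shift P 0 200 0 104 0 i 400 i (200 * ((J : ℤ) + 1)) 0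
      rw [← h1] at hper
      have := P.fkg2 (T := Cn 0 (200 * (((J + 1 : ℕ) : ℤ) + 1)) 0 104 0 i
          (400 * (((J + 1 : ℕ) : ℤ) + 1)) i) (IL_Cn _ _ _ _ _ _ _ _)
        (IL_Cn _ _ _ _ _ _ _ _) (fun S h1 h2 => by
          have h2' : Cn (200 * ((J : ℤ) + 1)) (200 * (((J + 1 : ℕ) : ℤ) + 1)) 0 104
              (400 * ((J : ℤ) + 1)) i (400 * (((J + 1 : ℕ) : ℤ) + 1)) i S := by
            obtain ⟨z, w, hzw, hz, hw⟩ := h2
            refine ⟨z, w, NC.mono (Set.inter_subset_inter_right S ?_) hzw, ?_, ?_⟩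
            · exact rc_mono (by omega) (by push_cast; omega) (by omega) (by omega)
            · omega
            · push_cast at hw ⊢
              omega
          exact Cn.comp le_rfl (by push_cast; omega) (by positivity) le_rfl h1 h2')
        (by positivity) (by positivity) ih hper
      calc (x ^ 2) ^ (J + 1 + 1) = (x ^ 2) ^ (J + 1) * x ^ 2 := by ring
        _ ≤ _ := this
  rw [← hx]
  refine (key J).trans (P.mono _ _ ?_)
  rintro S ⟨z, w, hzw, hz, hw⟩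
  exact ⟨z, w, hzw, by omega, by omega⟩

/-- **885**: weak squares in a bounded window at the top give weak squares at all scales where the
long crossings are rare -/
theorem sq_down (P : PP) {p0 c1 p' c2 e1 : ℝ} (hp0 : 0 < p0) (hc1 : c1 = p0 / 6000)
    (hp' : p' = c1 / 6400) (hc2 : c2 = p' / 6000)
    (hn1 : 1800 * e1 + (1800 * (4 * e1 / c2 ^ 4) + (1800 * (p' / 6000) + 1800 * (p' / 6000))) < p')
    (hn0 : 1800 * e1 + (1800 * (4 * e1 / c2 ^ 4) + (1800 * (p0 / 6000) + 1800 * (p0 / 6000))) < p0)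
    {n m : ℤ} (hm : 100 ≤ m) (hgood : ∀ t, 200 * m ≤ t → t < n → eps P t ≤ e1)
    (hSQ : ∀ s, n ≤ 200 * s → s ≤ n → p0 ≤ P.L s (s + s / 50 + 2)) :
    ∀ k : ℕ, ∀ s, n - s ≤ k → m ≤ s → s ≤ n → p' ≤ P.L s (s + s / 50 + 2) := by
  have hc10 : 0 < c1 := by rw [hc1]; positivity
  have hp'0 : 0 < p' := by rw [hp']; positivity
  have hc20 : 0 < c2 := by rw [hc2]; positivity
  have hpp : p' ≤ p0 := by
    rw [hp', hc1]
    have : p0 / 6000 / 6400 = p0 * (1 / 38400000) := by ring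
    rw [this]
    nlinarith
  intro k
  induction k with
  | zero =>
    intro s h1 h2 h3
    exact hpp.trans (hSQ s (by omega) h3)
  | succ k ih =>
    intro s h1 h2 h3
    rcases le_or_gt n (200 * s) with h4 | h4
    · exact hpp.trans (hSQ s h4 h3)
    · have hsq : ∀ B, 200 * s ≤ B → B ≤ n → p' ≤ P.L (Wd B) B := by
        intro B hB1 hB2
        have hWd : Wd B = B - B / 40 := rfl
        refine (ih (Wd B) (by push_cast at h1; omega) (by omega) (by omega)).trans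
          (P.L_mono geo (by omega) le_rfl (by omega))
      have htop : p0 ≤ P.L (Wd n) n := by
        have hWd : Wd n = n - n / 40 := rfl
        exact (hSQ (Wd n) (by omega) (by omega)).trans
          (P.L_mono geo (by omega) le_rfl (by omega))
      have harm : ARM P c1 n s := by
        rcases lt_or_ge n (5200 * s + 5226) with h5 | h5
        · exact l3 P hp0 hc1 (by omega) (by omega) h5 htop
        · rw [hc1]
          refine l2g P hc20 hn0 (by omega) h5 htop (hgood _ (by omega) (by omega)) ?_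
          exact armg P hp'0 hc2 hn1 (by omega) hsq (n / 26).toNat (n / 26) (by omega) (by omega)
            (by omega) (fun t ht1 ht2 => hgood t (by omega) (by omega))
      have h6 := sq_of_easy P (by omega) (easy_of_arm P (by omega) (by omega) harm)
      have h7 : p' = c1 / 4 / 1600 := by rw [hp']; ring
      rw [h7]
      exact h6

/-- **RSW** (935 + 885): weak squares in the window `n/200 ≤ s ≤ n` -/
theorem rsw_sq {p0 : ℝ} (hp0 : 0 < p0) :
    ∃ c : ℝ, 0 < c ∧ ∀ (P : PP) (n : ℤ), 22000 ≤ n →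
      (∀ s, n ≤ 200 * s → s ≤ n → p0 ≤ P.L s (s + s / 50 + 2)) → c ≤ P.L (4 * n) n := by
  obtain ⟨p1, hp1⟩ : ∃ p1, p1 = min p0 1 := ⟨_, rfl⟩
  have hp1pos : 0 < p1 := by rw [hp1]; exact lt_min hp0 one_pos
  have hp1le : p1 ≤ 1 := by rw [hp1]; exact min_le_right _ _
  obtain ⟨c1, hc1⟩ : ∃ c1, c1 = p1 / 6000 := ⟨_, rfl⟩
  have hc10 : 0 < c1 := by rw [hc1]; positivity
  have hc11 : c1 ≤ 1 / 6000 := by rw [hc1]; linarith
  obtain ⟨p', hp'⟩ : ∃ p', p' = c1 / 6400 := ⟨_, rfl⟩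
  have hp'0 : 0 < p' := by rw [hp']; positivity
  have hp'1 : p' ≤ 1 := by rw [hp']; linarith
  obtain ⟨c2, hc2⟩ : ∃ c2, c2 = p' / 6000 := ⟨_, rfl⟩
  have hc20 : 0 < c2 := by rw [hc2]; positivity
  have hc21 : c2 ≤ 1 / 6000 := by rw [hc2]; linarith
  have hdiv : 4 * c2 ^ 6 / c2 ^ 4 = 4 * c2 ^ 2 := by
    rw [div_eq_iff (by positivity)]
    ring
  have hn1 : 1800 * c2 ^ 6 + (1800 * (4 * c2 ^ 6 / c2 ^ 4) +
      (1800 * (p' / 6000) + 1800 * (p' / 6000))) < p' := by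
    rw [hdiv]
    have := l2_num hp'0 hp'1 hc2
    rw [← hc2]
    exact this
  have hpp : p' ≤ p1 := by
    rw [hp', hc1]
    have : p1 / 6000 / 6400 = p1 * (1 / 38400000) := by ring
    rw [this]
    nlinarith
  have hn0 : 1800 * c2 ^ 6 + (1800 * (4 * c2 ^ 6 / c2 ^ 4) +
      (1800 * (p1 / 6000) + 1800 * (p1 / 6000))) < p1 := by
    linarith
  obtain ⟨κ1, hκ1⟩ : ∃ κ1, κ1 = ((p' / 43682) ^ 2) ^ (13199 + 1) := ⟨_, rfl⟩
  obtain ⟨κ2, hκ2⟩ : ∃ κ2, κ2 = c2 ^ 6 * (p' * c2 ^ 6) ^ 149999 := ⟨_, rfl⟩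
  have hκ1p : 0 < κ1 := by
    rw [hκ1]; exact pow_pos (pow_pos (div_pos hp'0 (by norm_num)) _) _
  have hκ2p : 0 < κ2 := by
    rw [hκ2]; exact mul_pos (pow_pos hc20 _) (pow_pos (mul_pos hp'0 (pow_pos hc20 _)) _)
  obtain ⟨κ, hκ⟩ : ∃ κ, κ = min κ1 κ2 := ⟨_, rfl⟩
  have hκp : 0 < κ := by rw [hκ]; exact lt_min hκ1p hκ2p
  obtain ⟨β, hβ⟩ : ∃ β, β = c2 * c2 * κ ^ 4 := ⟨_, rfl⟩
  have hβp : 0 < β := by rw [hβ]; positivity
  refine ⟨min κ (β * (p' * β) ^ 6), lt_min hκp (by positivity), ?_⟩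
  intro P n hn hSQ
  have hSQ1 : ∀ s, n ≤ 200 * s → s ≤ n → p1 ≤ P.L s (s + s / 50 + 2) := fun s h1 h2 =>
    (by rw [hp1]; exact min_le_left _ _ : p1 ≤ p0).trans (hSQ s h1 h2)
  -- the last good scale, with squares above it
  obtain ⟨r, hr, hrn, hrκ, hgood, hsqr⟩ : ∃ r : ℤ, 110 ≤ r ∧ r ≤ n ∧
      (κ ≤ P.L (24000 * r) r) ∧ (∀ s, r < s → s < n → eps P s ≤ c2 ^ 6) ∧
      ∀ s, r ≤ s → s ≤ n → p' ≤ P.L s (s + s / 50 + 2) := by
    classical
    by_cases hex : ∃ s : ℕ, 110 < s ∧ (s : ℤ) < n ∧ c2 ^ 6 < eps P s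
    · obtain ⟨s0, hs0⟩ := hex
      set A : Finset ℕ := (Finset.range n.toNat).filter fun s =>
        110 < s ∧ (s : ℤ) < n ∧ c2 ^ 6 < eps P s with hAdef
      have hA : s0 ∈ A := by
        rw [hAdef, Finset.mem_filter, Finset.mem_range]
        exact ⟨by omega, hs0⟩
      have hne : A.Nonempty := ⟨s0, hA⟩
      have hmax := A.max'_mem hne
      obtain ⟨-, hm1, hm2, hm3⟩ := (Finset.mem_filter (s := Finset.range n.toNat)
        (p := fun s : ℕ => 110 < s ∧ (s : ℤ) < n ∧ c2 ^ 6 < eps P s)).1 hmax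
      have hgood : ∀ s, ((A.max' hne : ℕ) : ℤ) < s → s < n → eps P s ≤ c2 ^ 6 := by
        intro s hs1 hs2
        by_contra hcon
        push Not at hcon
        have hs : s.toNat ∈ A := by
          rw [hAdef, Finset.mem_filter, Finset.mem_range]
          have e : ((s.toNat : ℕ) : ℤ) = s := Int.toNat_of_nonneg (by omega)
          refine ⟨by omega, by omega, by omega, ?_⟩
          rw [e]
          exact hcon
        have h1 := A.le_max' _ hs
        omega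
      have hsqr := sq_down P hp1pos hc1 hp' hc2 hn1 hn0 (n := n) (m := (A.max' hne : ℕ))
        (by omega) (fun t ht1 ht2 => hgood t (by omega) ht2) hSQ1
      have hsqr' : ∀ s, ((A.max' hne : ℕ) : ℤ) ≤ s → s ≤ n → p' ≤ P.L s (s + s / 50 + 2) :=
        fun s h1 h2 => hsqr (n - s).toNat s (by omega) h1 h2
      refine ⟨(A.max' hne : ℕ), by omega, hm2.le, ?_, hgood, hsqr'⟩
      refine (show κ ≤ κ2 by rw [hκ]; exact min_le_right _ _).trans ?_
      rw [hκ2]
      exact long_of_eps P hp'0 (pow_pos hc20 _) (by omega) (hsqr' _ le_rfl hm2.le) hm3.le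
    · push Not at hex
      have hgood : ∀ s, (110 : ℤ) < s → s < n → eps P s ≤ c2 ^ 6 := by
        intro s hs1 hs2
        have e : ((s.toNat : ℕ) : ℤ) = s := Int.toNat_of_nonneg (by omega)
        have := hex s.toNat (by omega) (by omega)
        rwa [e] at this
      have hsqr := sq_down P hp1pos hc1 hp' hc2 hn1 hn0 (n := n) (m := 100)
        le_rfl (fun t ht1 ht2 => hgood t (by omega) ht2) hSQ1
      have hsqr' : ∀ s, (100 : ℤ) ≤ s → s ≤ n → p' ≤ P.L s (s + s / 50 + 2) :=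
        fun s h1 h2 => hsqr (n - s).toNat s (by omega) h1 h2
      refine ⟨110, le_rfl, by omega, ?_, hgood, fun s h1 h2 => hsqr' s (by omega) h2⟩
      refine (show κ ≤ κ1 by rw [hκ]; exact min_le_left _ _).trans ?_
      have h1 : p' ≤ P.L 100 104 := by
        have := hsqr' 100 le_rfl (by omega)
        norm_num at this
        exact this
      rw [hκ1]
      refine (base P hp'0 h1 13199).trans (P.L_mono geo (by norm_num) ?_ (by norm_num))
      norm_num
  rcases lt_or_ge n (6000 * r) with h6 | h6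
  · exact (min_le_left _ _).trans (hrκ.trans (P.L_mono geo (by omega) (by omega) hrn))
  · refine (min_le_right _ _).trans ?_
    have harm : ARM P c2 (n - 4 * r) r :=
      armg P hp'0 hc2 hn1 (r := r) (n := n) (by omega) (fun B hB1 hB2 => by
          have hWd : Wd B = B - B / 40 := rfl
          refine (hsqr (Wd B) (by omega) (by omega)).trans
            (P.L_mono geo (by omega) le_rfl (by omega)))
        (n - 4 * r).toNat (n - 4 * r) (by omega) (by omega) (by omega)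
        (fun s hs1 hs2 => hgood s (by omega) (by omega))
    have hg := glue P hc20 hκp (by omega) (by omega) harm
      (hrκ.trans (P.L_mono geo (by omega) (by omega) le_rfl))
    have e : n - 4 * r + 4 * r = n := by ring
    rw [e, ← hβ] at hg
    exact four_of_half P hp'0 hβp (by omega) (hsqr n hrn le_rfl) hg

/-- **RSW from easy crossings in a bounded window of scales** -/
theorem rsw_top {p1 : ℝ} (hp1 : 0 < p1) :
    ∃ c : ℝ, 0 < c ∧ ∀ (P : PP) (n : ℤ), 22000 ≤ n →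
      (∀ s, n ≤ 200 * s → s ≤ n → p1 ≤ P.L s (4 * s)) →
      c ≤ P.L (4 * n) n ∧ ∀ p q, c ≤ P.p (Ann p q n) := by
  obtain ⟨c, hc, h⟩ := rsw_sq (p0 := p1 / 1600) (by positivity)
  refine ⟨min c (c ^ 4), lt_min hc (by positivity), fun P n hn hE => ?_⟩
  have h1 := h P n hn (fun s hs1 hs2 => sq_of_easy P (by omega) (hE s hs1 hs2))
  exact ⟨(min_le_left _ _).trans h1, fun p q => (min_le_right _ _).trans (P.Ann_ge p q hc.le h1)⟩

end Vale.Agent.P159.TM.H285
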