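import Vale.Agent.P159.TM.H574.Circ
import Vale.Agent.P159.TM.H285.RswU

/-!
# P159, T1, row R9 without the hypothesis on one edge

`ArmTorW` = the arms of the torus law at the scales `ξ / (200 A) ≤ t ≤ ξ / A`.
-/

open scoped ENNReal
open Finset

namespace Vale.Agent.P159.TM.H285

open Vale.Agent.P145.FB
open Vale.Agent.P159.TM.H459

/-- free arms of the two-copy torus law at the scales `ξ / (200 A) ≤ t ≤ ξ / A`, with a probability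
chosen before `A` -/
def ArmTorW (b1 b2 a : ℝ) : Prop :=
  ∃ p1 : ℝ, 0 < p1 ∧ ∃ A₁ : ℕ, ∀ A : ℕ, A₁ ≤ A → ∃ W₀ : ℝ, ∀ W : ℝ, W₀ ≤ W → ∃ ys : ℝ,
    ∃ X : ℕ, 0 < ys ∧ ∀ (N : ℕ) [NeZero N] (b : ℝ) (hb : 0 < b) (ξ : ℕ) (hξ : 0 < ξ) (y : ℝ),
      Spec.Rng b1 b2 a W ys X N b ξ y → ∀ t : ℤ, 1 ≤ t → ((ξ / A : ℕ) : ℤ) ≤ 200 * t →
        t ≤ ((ξ / A : ℕ) : ℤ) → p1 ≤ (H426.ppT N b ξ hb hξ).p (H121.Out t)

/-- the form with the ratio `20` -/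
theorem armTor_of {b1 b2 a : ℝ} (h : ArmTorW b1 b2 a) : H574.ArmTor b1 b2 a := by
  obtain ⟨p1, hp1, A₁, h⟩ := h
  refine ⟨p1, hp1, A₁, fun A hA => ?_⟩
  obtain ⟨W₀, h⟩ := h A hA
  refine ⟨W₀, fun W hW => ?_⟩
  obtain ⟨ys, X, hys, h⟩ := h W hW
  exact ⟨ys, X, hys, fun N _ b hb ξ hξ y hr t ht h1 h2 =>
    h N b hb ξ hξ y hr t ht (by omega) h2⟩

/-- **row R9**, from the arms alone -/
theorem circ_arm {b1 b2 a : ℝ} (hb1 : 0 < b1) (hA : ArmTorW b1 b2 a) : H58.Circ b1 b2 a := by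
  obtain ⟨p1, hp1, A₁, hA⟩ := hA
  obtain ⟨c, hc, hR⟩ := rsw_top (p1 := p1 / 4) (by positivity)
  refine ⟨c, hc, max A₁ 1, fun A hAA => ?_⟩
  obtain ⟨W₀, hA⟩ := hA A ((le_max_left _ _).trans hAA)
  have hA1 : 1 ≤ A := (le_max_right _ _).trans hAA
  refine ⟨W₀, fun W hW => ?_⟩
  obtain ⟨ys, X, hys, hA⟩ := hA W hW
  refine ⟨ys, max X (22000 * A), hys, ?_⟩
  intro N _ b hb ξ y hrng x0
  have hbp : 0 < b := hb1.trans_le hrng.hb1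
  have hX := hrng.hX
  have hX0 : X ≤ ξ := (le_max_left _ _).trans hX
  have hXA : 22000 * A ≤ ξ := (le_max_right _ _).trans hX
  have hξ : 0 < ξ := by omega
  have hr2 : 22000 ≤ ξ / A := (Nat.le_div_iff_mul_le (by omega)).2 hXA
  have hr1 : 1 ≤ ξ / A := le_trans (by norm_num) hr2
  have hrng' : Spec.Rng b1 b2 a W ys X N b ξ y :=
    { hrng with
      hX := hX0
      hK := (Nat.mul_le_mul_right _ (le_max_left _ _)).trans hrng.hK }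
  obtain ⟨p, q, hpq⟩ := H574.pr_surj x0
  have hr3 : (22000 : ℤ) ≤ ((ξ / A : ℕ) : ℤ) := by exact_mod_cast hr2
  have h1 := hR (H426.ppT N b ξ hbp hξ) ((ξ / A : ℕ) : ℤ) hr3
    (fun t ht1 ht2 => H121.easy_of_out _ (by omega)
      (hA N b hbp ξ hξ y hrng' t (by omega) ht1 ht2))
  have h2 := (h1.2 p q).trans (H574.ann_le_PO (N := N) hb hbp hξ p q hr1)
  rw [hpq] at h2
  exact h2

end Vale.Agent.P159.TM.H285
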