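import Vale.Agent.P159.TM.H285.RswM

/-!
P159 / A6, RSW theorem of 935: gluing and conclusion.
-/

namespace Vale.Agent.P159.TM.H285

open Vale.Agent.P145.FB Vale.Agent.P153.Topo

/-- the two arms of a gap joined by a circuit -/
theorem det4 {X B v a u r q : ℤ} {S : Set (ℤ × ℤ)} (hr : 1 ≤ r) (hu : X ≤ u)
    (hu' : u + r ≤ X + B) (_hq : 0 ≤ q) (ha : 4 * r ≤ a) (haq : q + r ≤ a)
    (hN : Up X (X + B) (v - q) (v + a) u v r S)
    (hS : Dn X (X + B) (v + r - a) (v + r + q) u v r S) (hA : Ann u v r S) :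
    BTc (X - 2 * r) (X + B + 2 * r) (v + r - a) (v + a) S := by
  obtain ⟨o, -, hmeet⟩ := Ann.cluster (by omega) hA
  obtain ⟨x1, y1, h1, h1g, h1t⟩ := hN
  obtain ⟨x2, y2, h2, h2g, h2t⟩ := hS
  rw [mem_rc] at h1g h2g
  obtain ⟨w1, hw1, hw1'⟩ := hmeet {z | NC (S ∩ rc X (X + B) (v - q) (v + a)) x1 z} x1 y1
    h1.cluster.conn (by rw [mem_rc]; omega) (by omega)
  obtain ⟨w2, hw2, hw2'⟩ := hmeet {z | NC (S ∩ rc X (X + B) (v + r - a) (v + r + q)) x2 z} x2 y2
    h2.cluster.conn (by rw [mem_rc]; omega) (by omega)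
  have e1 : NC (S ∩ rc (X - 2 * r) (X + B + 2 * r) (v + r - a) (v + a)) y1 w1 :=
    NC.mono (Set.inter_subset_inter_right S (rc_mono (by omega) (by omega) (by omega) (by omega)))
      (h1.symm.trans hw1)
  have e2 : NC (S ∩ rc (X - 2 * r) (X + B + 2 * r) (v + r - a) (v + a)) w2 y2 :=
    NC.mono (Set.inter_subset_inter_right S (rc_mono (by omega) (by omega) (by omega) (by omega)))
      (NC.trans (NC.symm hw2) h2)
  have e3 : NC (S ∩ rc (X - 2 * r) (X + B + 2 * r) (v + r - a) (v + a)) w1 w2 := by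
    refine NC.mono (Set.inter_subset_inter_right S ?_) (hw1'.symm.trans hw2')
    refine (annR_sub u v r).trans ?_
    exact rc_mono (by omega) (by omega) (by omega) (by omega)
  exact ⟨y2, y1, ((e1.trans e3).trans e2).symm, h2t, h1t⟩

/-- case (b) of the conclusion -/
theorem glue (P : PP) {c κ : ℝ} (hc : 0 < c) (hκ : 0 < κ) {B r : ℤ} (hr : 100 ≤ r)
    (hB : 200 * r ≤ B) (hA : ARM P c B r) (hκr : κ ≤ P.L (4 * r) r) :
    c * c * κ ^ 4 ≤ P.L (B + 4 * r + (B + 4 * r) / 2) (B + 4 * r) := by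
  obtain ⟨p, q, hp, hpr, hq, hqr, hU⟩ := hA
  have hWd : Wd B = B - B / 40 := rfl
  obtain ⟨a, ha⟩ : ∃ a, a = Wd B - q := ⟨_, rfl⟩
  have hN : c ≤ P.p (Up 0 (0 + B) (0 - q) (0 + a) (0 + p) 0 r) := by
    rw [ha, p_N]; exact hU
  have hS : c ≤ P.p (Dn 0 (0 + B) (0 + r - a) (0 + r + q) (0 + p) 0 r) := by
    rw [ha, p_S]; exact hU
  have hAnn := P.Ann_ge (t := r) (0 + p) 0 hκ.le hκr
  have k := P.fkg3 (T := BTc (0 - 2 * r) (0 + B + 2 * r) (0 + r - a) (0 + a))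
    (IL_Up _ _ _ _ _ _ _) (IL_Dn _ _ _ _ _ _ _) (IL_Ann _ _ _)
    (fun S h1 h2 h3 => det4 (by omega) (by omega) (by omega) hq (by omega) (by omega) h1 h2 h3)
    hc.le hc.le (by positivity) hN hS hAnn
  rw [P.B_eq'] at k
  refine k.trans (P.L_mono geo ?_ ?_ ?_)
  · omega
  · omega
  · omega

/-- chain of two crossings over a wide overlap -/
theorem chainW (P : PP) {c0 : ℝ} (h0 : 0 ≤ c0) {w w' h h' : ℤ} (hh : 0 ≤ h) (hh' : 0 ≤ h')
    (hsq : c0 ≤ P.L h h') (hw : h' ≤ w) (hw' : h' ≤ w') {a b : ℝ} (ha : 0 ≤ a) (hb : 0 ≤ b)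
    (hwa : a ≤ P.L w h) (hwb : b ≤ P.L w' h) : a * c0 * b ≤ P.L (w + w' - h') h := by
  refine P.fkg3 (IL_LRc 0 w 0 h) (IL_BTc (w - h') w 0 h) (IL_LRc (w - h') (w + w' - h') 0 h)
    (fun S h1 h2 h3 => geo.chain 0 (w - h') w (w + w' - h') 0 h S (by omega) (by omega) (by omega)
      hh h1 h2 h3) ha h0 hb ?_ ?_ ?_
  · rw [P.L_eq']; simpa using hwa
  · rw [P.B_eq']
    have e : w - (w - h') = h' := by ring
    rw [e]; simpa using hsq
  · rw [P.L_eq']
    have e : w + w' - h' - (w - h') = w' := by ring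
    rw [e]; simpa using hwb

/-- iterated chain -/
theorem iterW (P : PP) {c0 : ℝ} (h0 : 0 ≤ c0) {h h' k : ℤ} (hh : 0 ≤ h) (hh' : 0 ≤ h') (hk : 0 ≤ k)
    (hsq : c0 ≤ P.L h h') {a : ℝ} (ha : 0 ≤ a) (hka : a ≤ P.L (h' + k) h) (j : ℕ) :
    a * (c0 * a) ^ j ≤ P.L (h' + ((j : ℤ) + 1) * k) h := by
  induction j with
  | zero => simpa using hka
  | succ j ih =>
    have h1 : 0 ≤ a * (c0 * a) ^ j := mul_nonneg ha (pow_nonneg (mul_nonneg h0 ha) _)
    have h2 : 0 ≤ ((j : ℤ) + 1) * k := mul_nonneg (by positivity) hk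
    have := chainW P h0 hh hh' hsq (w := h' + ((j : ℤ) + 1) * k) (w' := h' + k) (by linarith)
      (by linarith) h1 ha ih hka
    have e : h' + ((j : ℤ) + 1) * k + (h' + k) - h' = h' + (((j + 1 : ℕ) : ℤ) + 1) * k := by
      push_cast; ring
    rw [e] at this
    calc a * (c0 * a) ^ (j + 1) = a * (c0 * a) ^ j * c0 * a := by ring
      _ ≤ _ := this

/-- a straight segment from one edge -/
theorem seg (P : PP) {a1 : ℝ} (ha1 : 0 < a1) (hE : a1 ≤ P.L 1 0) (j : ℕ) :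
    a1 * (a1 * a1) ^ j ≤ P.L ((j : ℤ) + 1) 0 := by
  have h1 : a1 ≤ P.L 0 0 := hE.trans (P.L_mono geo le_rfl (by norm_num) le_rfl)
  have := iterW P ha1.le (h := 0) (h' := 0) (k := 1) le_rfl le_rfl (by norm_num) h1 ha1.le
    (by simpa using hE) j
  simpa using this

/-- long crossings at a scale with a crossing of ratio 6/5 -/
theorem long_of_eps (P : PP) {p0 e : ℝ} (hp0 : 0 < p0) (he : 0 < e) {r : ℤ} (hr : 100 ≤ r)
    (hsq : p0 ≤ P.L r (r + r / 50 + 2)) (heps : e ≤ eps P r) :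
    e * (p0 * e) ^ 149999 ≤ P.L (24000 * r) r := by
  have hLg : Lg r = r + (r + 4) / 5 := rfl
  have h1 := iterW P hp0.le (h := r) (h' := r + r / 50 + 2) (k := (r + 4) / 5 - r / 50 - 2)
    (by omega) (by omega) (by omega) hsq he.le
    (by
      have e1 : r + r / 50 + 2 + ((r + 4) / 5 - r / 50 - 2) = Lg r := by rw [hLg]; ring
      rw [e1]; exact heps) 149999
  refine h1.trans (P.L_mono geo (by omega) ?_ le_rfl)
  push_cast
  omega

/-- from ratio 3/2 to ratio 4 -/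
theorem four_of_half (P : PP) {p0 e : ℝ} (hp0 : 0 < p0) (he : 0 < e) {t : ℤ} (ht : 100 ≤ t)
    (hsq : p0 ≤ P.L t (t + t / 50 + 2)) (h : e ≤ P.L (t + t / 2) t) :
    e * (p0 * e) ^ 6 ≤ P.L (4 * t) t := by
  have h1 := iterW P hp0.le (h := t) (h' := t + t / 50 + 2) (k := t / 2 - t / 50 - 2)
    (by omega) (by omega) (by omega) hsq he.le
    (by
      have e1 : t + t / 50 + 2 + (t / 2 - t / 50 - 2) = t + t / 2 := by ring
      rw [e1]; exact h) 6
  refine h1.trans (P.L_mono geo (by omega) ?_ le_rfl)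
  push_cast
  omega

/-- **RSW** (935): box crossings of a positively associated symmetric percolation from weak squares
at all scales and one edge -/
theorem rsw {p0 a1 : ℝ} (hp0 : 0 < p0) (ha1 : 0 < a1) :
    ∃ c : ℝ, 0 < c ∧ ∀ (P : PP) (n : ℤ), a1 ≤ P.L 1 0 →
      (∀ s, 100 ≤ s → s ≤ n → p0 ≤ P.L s (s + s / 50 + 2)) →
      ∀ t, 1 ≤ t → t ≤ n → c ≤ P.L (4 * t) t := by
  obtain ⟨p1, hp1⟩ : ∃ p1, p1 = min p0 1 := ⟨_, rfl⟩
  have hp1pos : 0 < p1 := by rw [hp1]; exact lt_min hp0 one_pos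
  have hp1le : p1 ≤ 1 := by rw [hp1]; exact min_le_right _ _
  obtain ⟨c, hc⟩ : ∃ c, c = p1 / 6000 := ⟨_, rfl⟩
  have hc0 : 0 < c := by rw [hc]; positivity
  obtain ⟨κ1, hκ1⟩ : ∃ κ1, κ1 = a1 * (a1 * a1) ^ 2399999 := ⟨_, rfl⟩
  obtain ⟨κ2, hκ2⟩ : ∃ κ2, κ2 = c ^ 6 * (p1 * c ^ 6) ^ 149999 := ⟨_, rfl⟩
  have hκ1p : 0 < κ1 := by rw [hκ1]; exact mul_pos ha1 (pow_pos (mul_pos ha1 ha1) _)
  have hκ2p : 0 < κ2 := by
    rw [hκ2]; exact mul_pos (pow_pos hc0 _) (pow_pos (mul_pos hp1pos (pow_pos hc0 _)) _)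
  obtain ⟨κ, hκ⟩ : ∃ κ, κ = min κ1 κ2 := ⟨_, rfl⟩
  have hκp : 0 < κ := by rw [hκ]; exact lt_min hκ1p hκ2p
  obtain ⟨β, hβ⟩ : ∃ β, β = c * c * κ ^ 4 := ⟨_, rfl⟩
  have hβp : 0 < β := by rw [hβ]; positivity
  refine ⟨min κ (β * (p1 * β) ^ 6), lt_min hκp (by positivity), ?_⟩
  intro P n hE hSQ t ht htn
  have hseg : κ1 ≤ P.L 2400000 0 := by
    rw [hκ1]
    refine (seg P ha1 hE 2399999).trans (le_of_eq ?_)
    norm_num
  have hSQ1 : ∀ s, 100 ≤ s → s ≤ n → p1 ≤ P.L s (s + s / 50 + 2) := fun s h1 h2 =>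
    (by rw [hp1]; exact min_le_left _ _ : p1 ≤ p0).trans (hSQ s h1 h2)
  -- the last good scale
  obtain ⟨r, hr, hrt, hrκ, hgood⟩ : ∃ r : ℤ, 100 ≤ r ∧ (r < t ∨ r = 100) ∧
      (κ ≤ P.L (24000 * r) r) ∧ ∀ s, r < s → s < t → eps P s ≤ c ^ 6 := by
    classical
    by_cases hex : ∃ s : ℕ, 100 < s ∧ (s : ℤ) < t ∧ c ^ 6 < eps P s
    · obtain ⟨s0, hs0⟩ := hex
      set A : Finset ℕ := (Finset.range t.toNat).filter fun s =>
        100 < s ∧ (s : ℤ) < t ∧ c ^ 6 < eps P s with hAdef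
      have hA : s0 ∈ A := by
        rw [hAdef, Finset.mem_filter, Finset.mem_range]
        exact ⟨by omega, hs0⟩
      have hne : A.Nonempty := ⟨s0, hA⟩
      have hmax := A.max'_mem hne
      obtain ⟨-, hm1, hm2, hm3⟩ := (Finset.mem_filter (s := Finset.range t.toNat)
        (p := fun s : ℕ => 100 < s ∧ (s : ℤ) < t ∧ c ^ 6 < eps P s)).1 hmax
      refine ⟨(A.max' hne : ℕ), by exact_mod_cast hm1.le, Or.inl hm2, ?_, ?_⟩
      · refine (show κ ≤ κ2 by rw [hκ]; exact min_le_right _ _).trans ?_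
        rw [hκ2]
        exact long_of_eps P hp1pos (pow_pos hc0 _) (by exact_mod_cast hm1.le)
          (hSQ1 _ (by exact_mod_cast hm1.le) (by omega)) hm3.le
      · intro s hs1 hs2
        by_contra hcon
        push Not at hcon
        have hs : s.toNat ∈ A := by
          rw [hAdef, Finset.mem_filter, Finset.mem_range]
          have e : ((s.toNat : ℕ) : ℤ) = s := Int.toNat_of_nonneg (by omega)
          refine ⟨by omega, by omega, by omega, ?_⟩
          rw [e]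
          exact hcon
        have h1 := A.le_max' _ hs
        omega
    · push Not at hex
      refine ⟨100, le_rfl, Or.inr rfl, ?_, ?_⟩
      · refine (show κ ≤ κ1 by rw [hκ]; exact min_le_left _ _).trans (hseg.trans ?_)
        exact P.L_mono geo (by norm_num) (by norm_num) (by norm_num)
      · intro s hs1 hs2
        have e : ((s.toNat : ℕ) : ℤ) = s := Int.toNat_of_nonneg (by omega)
        have := hex s.toNat (by omega) (by omega)
        rwa [e] at this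
  rcases lt_or_ge t (6000 * r) with h6 | h6
  · -- direct
    refine (min_le_left _ _).trans ?_
    rcases lt_or_ge t r with h7 | h7
    · have h8 : r = 100 := by omega
      refine (show κ ≤ κ1 by rw [hκ]; exact min_le_left _ _).trans (hseg.trans ?_)
      exact P.L_mono geo (by omega) (by omega) (by omega)
    · exact hrκ.trans (P.L_mono geo (by omega) (by omega) h7)
  · refine (min_le_right _ _).trans ?_
    have harm : ARM P c (t - 4 * r) r :=
      arm P hp1pos hp1le hc (r := r) (n := n) hr (fun B hB1 hB2 => by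
          have hWd : Wd B = B - B / 40 := rfl
          refine (hSQ1 (Wd B) (by omega) (by omega)).trans
            (P.L_mono geo (by omega) le_rfl (by omega)))
        (t - 4 * r).toNat (t - 4 * r) (by omega) (by omega) (by omega)
        (fun s hs1 hs2 => hgood s hs1 (by omega))
    have hg := glue P hc0 hκp hr (by omega) harm
      (hrκ.trans (P.L_mono geo (by omega) (by omega) le_rfl))
    have e : t - 4 * r + 4 * r = t := by ring
    rw [e, ← hβ] at hg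
    exact four_of_half P hp1pos hβp (by omega) (hSQ1 t (by omega) htn) hg

/-- **RSW, circuits** -/
theorem rsw_ann {p0 a1 : ℝ} (hp0 : 0 < p0) (ha1 : 0 < a1) :
    ∃ c : ℝ, 0 < c ∧ ∀ (P : PP) (n : ℤ), a1 ≤ P.L 1 0 →
      (∀ s, 100 ≤ s → s ≤ n → p0 ≤ P.L s (s + s / 50 + 2)) →
      ∀ t, 1 ≤ t → t ≤ n → ∀ p q, c ≤ P.p (Ann p q t) := by
  obtain ⟨c, hc, h⟩ := rsw hp0 ha1
  exact ⟨c ^ 4, by positivity, fun P n hE hSQ t ht htn p q =>
    P.Ann_ge p q hc.le (h P n hE hSQ t ht htn)⟩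

end Vale.Agent.P159.TM.H285
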