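import Vale.Agent.P145.FB.Geo
import Vale.Agent.P145.FB.Tassion

/-!
P159 / A6, rows R1, R2 of the RSW theorem of 935: deterministic geometry.
A gap is the box `rc p (p + r) q (q + r)`.
-/

namespace Vale.Agent.P159.TM.H285

open Vale.Agent.P145.FB Vale.Agent.P153.Topo

/-- an open path inside `rc a b c d` from the gap to the top side -/
def Up (a b c d p q r : ℤ) (S : Set (ℤ × ℤ)) : Prop :=
  ∃ x y, NC (S ∩ rc a b c d) x y ∧ (x ∈ rc p (p + r) q (q + r) ∧ y.2 = 2 * d)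

/-- an open path inside `rc a b c d` from the gap to the bottom side -/
def Dn (a b c d p q r : ℤ) (S : Set (ℤ × ℤ)) : Prop :=
  ∃ x y, NC (S ∩ rc a b c d) x y ∧ (x ∈ rc p (p + r) q (q + r) ∧ y.2 = 2 * c)

/-- an open path inside `rc a b c d` from the gap to the right side -/
def Rt (a b c d p q r : ℤ) (S : Set (ℤ × ℤ)) : Prop :=
  ∃ x y, NC (S ∩ rc a b c d) x y ∧ (x ∈ rc p (p + r) q (q + r) ∧ y.1 = 2 * b)

/-- an open path inside `rc a b c d` from the gap to the left side -/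
def Lf (a b c d p q r : ℤ) (S : Set (ℤ × ℤ)) : Prop :=
  ∃ x y, NC (S ∩ rc a b c d) x y ∧ (x ∈ rc p (p + r) q (q + r) ∧ y.1 = 2 * a)

theorem IL_Up (a b c d p q r : ℤ) : IL (Up a b c d p q r) :=
  IL_ex _ (rc_bdd a b c d) (fun x y => x ∈ rc p (p + r) q (q + r) ∧ y.2 = 2 * d)

theorem IL_Dn (a b c d p q r : ℤ) : IL (Dn a b c d p q r) :=
  IL_ex _ (rc_bdd a b c d) (fun x y => x ∈ rc p (p + r) q (q + r) ∧ y.2 = 2 * c)

theorem IL_Rt (a b c d p q r : ℤ) : IL (Rt a b c d p q r) :=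
  IL_ex _ (rc_bdd a b c d) (fun x y => x ∈ rc p (p + r) q (q + r) ∧ y.1 = 2 * b)

theorem IL_Lf (a b c d p q r : ℤ) : IL (Lf a b c d p q r) :=
  IL_ex _ (rc_bdd a b c d) (fun x y => x ∈ rc p (p + r) q (q + r) ∧ y.1 = 2 * a)

section sym

variable (S : Set (ℤ × ℤ))

theorem Up_shift (a b c d p q r u v : ℤ) :
    Up a b c d p q r {z | (z.1 + 2 * u, z.2 + 2 * v) ∈ S} ↔
      Up (a + u) (b + u) (c + v) (d + v) (p + u) (q + v) r S := by
  refine ex_iff (T := fun z => (z.1 + 2 * u, z.2 + 2 * v))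
    (T' := fun z => (z.1 + 2 * (-u), z.2 + 2 * (-v))) ?_ (nn_shift u v) (nn_shift (-u) (-v)) ?_ ?_ S
  · rintro ⟨x, y⟩; ext <;> dsimp only <;> ring
  · rintro ⟨x, y⟩; simp only [mem_rc]; constructor <;> intro h <;> omega
  · rintro ⟨x, y⟩ ⟨x', y'⟩; simp only [mem_rc]; constructor <;> intro h <;> omega

theorem Rt_shift (a b c d p q r u v : ℤ) :
    Rt a b c d p q r {z | (z.1 + 2 * u, z.2 + 2 * v) ∈ S} ↔
      Rt (a + u) (b + u) (c + v) (d + v) (p + u) (q + v) r S := by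
  refine ex_iff (T := fun z => (z.1 + 2 * u, z.2 + 2 * v))
    (T' := fun z => (z.1 + 2 * (-u), z.2 + 2 * (-v))) ?_ (nn_shift u v) (nn_shift (-u) (-v)) ?_ ?_ S
  · rintro ⟨x, y⟩; ext <;> dsimp only <;> ring
  · rintro ⟨x, y⟩; simp only [mem_rc]; constructor <;> intro h <;> omega
  · rintro ⟨x, y⟩ ⟨x', y'⟩; simp only [mem_rc]; constructor <;> intro h <;> omega

theorem Up_refly (a b c d p q r : ℤ) :
    Up a b c d p q r {z | (z.1, -z.2) ∈ S} ↔ Dn a b (-d) (-c) p (-q - r) r S := by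
  refine ex_iff (T := fun z => (z.1, -z.2)) (T' := fun z => (z.1, -z.2)) ?_ nn_refly nn_refly ?_ ?_ S
  · rintro ⟨x, y⟩; ext <;> dsimp only <;> ring
  · rintro ⟨x, y⟩; simp only [mem_rc]; constructor <;> intro h <;> omega
  · rintro ⟨x, y⟩ ⟨x', y'⟩; simp only [mem_rc]; constructor <;> intro h <;> omega

theorem Lf_reflx (a b c d p q r : ℤ) :
    Lf a b c d p q r {z | (-z.1, z.2) ∈ S} ↔ Rt (-b) (-a) c d (-p - r) q r S := by
  refine ex_iff (T := fun z => (-z.1, z.2)) (T' := fun z => (-z.1, z.2)) ?_ nn_reflx nn_reflx ?_ ?_ S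
  · rintro ⟨x, y⟩; ext <;> dsimp only <;> ring
  · rintro ⟨x, y⟩; simp only [mem_rc]; constructor <;> intro h <;> omega
  · rintro ⟨x, y⟩ ⟨x', y'⟩; simp only [mem_rc]; constructor <;> intro h <;> omega

theorem Rt_swap (a b c d p q r : ℤ) :
    Rt a b c d p q r {z | (z.2, z.1) ∈ S} ↔ Up c d a b q p r S := by
  refine ex_iff (T := fun z => (z.2, z.1)) (T' := fun z => (z.2, z.1)) ?_ nn_swap nn_swap ?_ ?_ S
  · rintro ⟨x, y⟩; rfl
  · rintro ⟨x, y⟩; simp only [mem_rc]; constructor <;> intro h <;> omega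
  · rintro ⟨x, y⟩ ⟨x', y'⟩; simp only [mem_rc]; constructor <;> intro h <;> omega

end sym

section prob

variable (P : PP)

theorem p_Up_shift (a b c d p q r u v : ℤ) :
    P.p (Up (a + u) (b + u) (c + v) (d + v) (p + u) (q + v) r) = P.p (Up a b c d p q r) := by
  rw [← P.shift u v _ (IL_Up a b c d p q r)]
  congr 1
  funext S
  exact propext (Up_shift S a b c d p q r u v).symm

theorem p_Rt_shift (a b c d p q r u v : ℤ) :
    P.p (Rt (a + u) (b + u) (c + v) (d + v) (p + u) (q + v) r) = P.p (Rt a b c d p q r) := by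
  rw [← P.shift u v _ (IL_Rt a b c d p q r)]
  congr 1
  funext S
  exact propext (Rt_shift S a b c d p q r u v).symm

theorem p_Dn (a b c d p q r : ℤ) :
    P.p (Dn a b (-d) (-c) p (-q - r) r) = P.p (Up a b c d p q r) := by
  rw [← P.refly _ (IL_Up a b c d p q r)]
  congr 1
  funext S
  exact propext (Up_refly S a b c d p q r).symm

theorem p_Rt_Lf (a b c d p q r : ℤ) :
    P.p (Rt (-b) (-a) c d (-p - r) q r) = P.p (Lf a b c d p q r) := by
  rw [← P.reflx _ (IL_Lf a b c d p q r)]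
  congr 1
  funext S
  exact propext (Lf_reflx S a b c d p q r).symm

theorem p_Up_Rt (a b c d p q r : ℤ) :
    P.p (Up c d a b q p r) = P.p (Rt a b c d p q r) := by
  rw [← P.swap _ (IL_Rt a b c d p q r)]
  congr 1
  funext S
  exact propext (Rt_swap S a b c d p q r).symm

/-- the rotation used in (L2) -/
theorem p_Up_Lf (W B u w r : ℤ) :
    P.p (Up 0 B 0 W w (W - u - r) r) = P.p (Lf 0 W 0 B u w r) := by
  rw [p_Up_Rt P 0 W 0 B (W - u - r) w r, ← p_Rt_Lf P 0 W 0 B u w r,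
    ← p_Rt_shift P (-W) (-0) 0 B (-u - r) w r W 0]
  congr 2 <;> ring

theorem p_N (B W p q r X v : ℤ) :
    P.p (Up X (X + B) (v - q) (v + (W - q)) (X + p) v r) = P.p (Up 0 B 0 W p q r) := by
  rw [← p_Up_shift P 0 B 0 W p q r X (v - q)]
  congr 2 <;> ring

theorem p_S (B W p q r X v : ℤ) :
    P.p (Dn X (X + B) (v + r - (W - q)) (v + r + q) (X + p) v r) = P.p (Up 0 B 0 W p q r) := by
  rw [← p_Up_shift P 0 B 0 W p q r X (-(v + r + q)),
    ← p_Dn P (0 + X) (B + X) (0 + -(v + r + q)) (W + -(v + r + q)) (p + X) (q + -(v + r + q)) r]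
  congr 2 <;> ring

end prob

/-! ### deterministic part -/

theorem nc_h {S : Set (ℤ × ℤ)} {x y : ℤ} (n : ℕ) (h : ∀ k : ℕ, k ≤ n → (x + k, y) ∈ S) :
    NC S (x, y) (x + n, y) := by
  induction n with
  | zero => simpa using NC.refl (S := S) (x := (x, y)) (by simpa using h 0 le_rfl)
  | succ n ih =>
    refine (ih fun k hk => h k (by omega)).tail ?_ (by simpa using h (n + 1) le_rfl)
    unfold NN
    left
    refine ⟨rfl, Or.inl ?_⟩
    push_cast
    ring

theorem nc_v {S : Set (ℤ × ℤ)} {x y : ℤ} (n : ℕ) (h : ∀ k : ℕ, k ≤ n → (x, y + k) ∈ S) :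
    NC S (x, y) (x, y + n) := by
  induction n with
  | zero => simpa using NC.refl (S := S) (x := (x, y)) (by simpa using h 0 le_rfl)
  | succ n ih =>
    refine (ih fun k hk => h k (by omega)).tail ?_ (by simpa using h (n + 1) le_rfl)
    unfold NN
    right
    refine ⟨rfl, Or.inl ?_⟩
    push_cast
    ring

theorem box_nc {a b c d : ℤ} {x y : ℤ × ℤ} (hx : x ∈ rc a b c d) (hy : y ∈ rc a b c d) :
    NC (rc a b c d) x y := by
  obtain ⟨x1, x2⟩ := x
  obtain ⟨y1, y2⟩ := y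
  rw [mem_rc] at hx hy
  dsimp only at hx hy
  have h1 : NC (rc a b c d) (x1, x2) (y1, x2) := by
    rcases le_total x1 y1 with h | h
    · have := nc_h (S := rc a b c d) (x := x1) (y := x2) (y1 - x1).toNat (fun k hk => by
        rw [mem_rc]; dsimp only; omega)
      have e : x1 + ((y1 - x1).toNat : ℤ) = y1 := by omega
      rwa [e] at this
    · have := nc_h (S := rc a b c d) (x := y1) (y := x2) (x1 - y1).toNat (fun k hk => by
        rw [mem_rc]; dsimp only; omega)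
      have e : y1 + ((x1 - y1).toNat : ℤ) = x1 := by omega
      rw [e] at this
      exact this.symm
  have h2 : NC (rc a b c d) (y1, x2) (y1, y2) := by
    rcases le_total x2 y2 with h | h
    · have := nc_v (S := rc a b c d) (x := y1) (y := x2) (y2 - x2).toNat (fun k hk => by
        rw [mem_rc]; dsimp only; omega)
      have e : x2 + ((y2 - x2).toNat : ℤ) = y2 := by omega
      rwa [e] at this
    · have := nc_v (S := rc a b c d) (x := y1) (y := y2) (x2 - y2).toNat (fun k hk => by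
        rw [mem_rc]; dsimp only; omega)
      have e : y2 + ((x2 - y2).toNat : ℤ) = x2 := by omega
      rw [e] at this
      exact this.symm
  exact h1.trans h2

theorem bt_of {X X' lo hi c d : ℤ} {S : Set (ℤ × ℤ)} {x y : ℤ × ℤ}
    (h : NC (S ∩ rc X X' lo hi) x y) (hx : x.2 ≤ 2 * c) (hcd : c ≤ d) (hy : 2 * d ≤ y.2) :
    BTc X X' c d S := by
  obtain ⟨z, w, hz, hw, hzw, _, _⟩ := h.exit (f := Prod.snd) nn_snd (c := 2 * c) (d := 2 * d)
    (by omega) hx hy
  refine ⟨z, w, hzw.mono ?_, hz, hw⟩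
  rintro u ⟨⟨hu1, hu2⟩, hu3, hu4⟩
  rw [mem_rc] at hu2
  exact ⟨hu1, by rw [mem_rc]; omega⟩

/-- a crossing which avoids the gap meets one of its two arms -/
theorem meet1 {X B Y H p q r v a : ℤ} {S G : Set (ℤ × ℤ)} (hp : 0 ≤ p) (hpr : p + r ≤ B)
    (hr : 0 ≤ r) (hq : 0 ≤ q) (haq : q + r ≤ a) (hY : v + r - a ≤ Y) (hYH : Y + H ≤ v + a)
    (hH : 0 ≤ H) (hG : rc (X + p) (X + p + r) v (v + r) ⊆ G) {x x' x1 y1 x2 y2 : ℤ × ℤ}
    (hA : NC ((S \ G) ∩ rc X (X + B) Y (Y + H)) x x') (hx : x.1 = 2 * X)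
    (hx' : x'.1 = 2 * (X + B)) (h1 : NC (S ∩ rc X (X + B) (v - q) (v + a)) x1 y1)
    (h1g : x1 ∈ rc (X + p) (X + p + r) v (v + r)) (h1t : y1.2 = 2 * (v + a))
    (h2 : NC (S ∩ rc X (X + B) (v + r - a) (v + r + q)) x2 y2)
    (h2g : x2 ∈ rc (X + p) (X + p + r) v (v + r)) (h2t : y2.2 = 2 * (v + r - a)) :
    ∃ z, NC ((S \ G) ∩ rc X (X + B) Y (Y + H)) x z ∧
      (NC (S ∩ rc X (X + B) (v - q) (v + a)) x1 z ∨
        NC (S ∩ rc X (X + B) (v + r - a) (v + r + q)) x2 z) := by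
  set T : Set (ℤ × ℤ) := {z | NC (S ∩ rc X (X + B) (v - q) (v + a)) x1 z} ∪
    rc (X + p) (X + p + r) v (v + r) ∪
    {z | NC (S ∩ rc X (X + B) (v + r - a) (v + r + q)) x2 z} with hT
  have k1 : NC (T ∩ rc X (X + B) (v + r - a) (v + a)) x1 y1 := by
    refine NC.mono ?_ h1.cluster
    intro z hz
    refine ⟨Or.inl (Or.inl hz), ?_⟩
    have h3 := (NC.right_mem hz).2
    rw [mem_rc] at h3 ⊢
    omega
  have k2 : NC (T ∩ rc X (X + B) (v + r - a) (v + a)) x2 y2 := by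
    refine NC.mono ?_ h2.cluster
    intro z hz
    refine ⟨Or.inr hz, ?_⟩
    have h3 := (NC.right_mem hz).2
    rw [mem_rc] at h3 ⊢
    omega
  have k3 : NC (T ∩ rc X (X + B) (v + r - a) (v + a)) x2 x1 := by
    refine NC.mono ?_ (box_nc h2g h1g)
    intro z hz
    refine ⟨Or.inl (Or.inr hz), ?_⟩
    rw [mem_rc] at hz ⊢
    omega
  have k4 : BTc X (X + B) (v + r - a) (v + a) T :=
    ⟨y2, y1, (k2.symm.trans k3).trans k1, h2t, h1t⟩
  obtain ⟨y, y', hyy, hyc, hyd⟩ := BTc.mono X X (X + B) (X + B) (v + r - a) Y (v + a) (Y + H) T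
    le_rfl le_rfl hY (by omega) hYH k4
  obtain ⟨z, hz1, hz2⟩ := ncross (S := (S \ G) ∩ rc X (X + B) Y (Y + H))
    (T := T ∩ rc X (X + B) Y (Y + H)) (a := 2 * X) (b := 2 * (X + B)) (c := 2 * Y)
    (d := 2 * (Y + H)) Set.inter_subset_right Set.inter_subset_right hA hx hx' hyy hyc hyd
  refine ⟨z, hz1, ?_⟩
  rcases hz2.right_mem.1 with (h | h) | h
  · exact Or.inl h
  · exact absurd (hG h) hz1.right_mem.1.2
  · exact Or.inr h

/-- **(L1), deterministic part** -/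
theorem det1 {X B Y H p q r v D a : ℤ} {S : Set (ℤ × ℤ)} (hp : 0 ≤ p) (hpr : p + r ≤ B)
    (hr : 0 ≤ r) (hq : 0 ≤ q) (haq : q + r ≤ a) (hD : 0 ≤ D) (hY : v + D + r - a ≤ Y)
    (hYH : Y + H ≤ v + a) (hH : 0 ≤ H)
    (hA : LRc X (X + B) Y (Y + H) (S \ (rc (X + p) (X + p + r) v (v + r) ∪
      rc (X + p) (X + p + r) (v + D) (v + D + r))))
    (hN : Up X (X + B) (v - q) (v + a) (X + p) v r S)
    (hS : Dn X (X + B) (v + r - a) (v + r + q) (X + p) v r S)
    (hN' : Up X (X + B) (v + D - q) (v + D + a) (X + p) (v + D) r S)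
    (hS' : Dn X (X + B) (v + D + r - a) (v + D + r + q) (X + p) (v + D) r S) :
    BTc X (X + B) (v + r) (v + D + a) S ∨ BTc X (X + B) (v + r - a) (v + D) S ∨
      BTc X (X + B) (v + D + r - a) (v + a) S ∨ BTc X (X + B) (v + r - a) (v + D + a) S := by
  obtain ⟨x, x', hxx, hx, hx'⟩ := hA
  obtain ⟨x1, y1, h1, h1g, h1t⟩ := hN
  obtain ⟨x2, y2, h2, h2g, h2t⟩ := hS
  obtain ⟨x3, y3, h3, h3g, h3t⟩ := hN'
  obtain ⟨x4, y4, h4, h4g, h4t⟩ := hS'
  obtain ⟨z, hz, hz'⟩ := meet1 hp hpr hr hq haq (by omega) hYH hH Set.subset_union_left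
    hxx hx hx' h1 h1g h1t h2 h2g h2t
  obtain ⟨w, hw, hw'⟩ := meet1 hp hpr hr hq haq (v := v + D) (by omega) (by omega) hH
    Set.subset_union_right hxx hx hx' h3 h3g h3t h4 h4g h4t
  have e0 : ∀ {c d : ℤ}, v + r - a ≤ c → d ≤ v + D + a →
      S ∩ rc X (X + B) c d ⊆ S ∩ rc X (X + B) (v + r - a) (v + D + a) := fun hc hd =>
    Set.inter_subset_inter_right S (rc_mono le_rfl le_rfl hc hd)
  have ezw : NC (S ∩ rc X (X + B) (v + r - a) (v + D + a)) z w := by
    refine (hz.symm.trans hw).mono ?_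
    rintro u ⟨⟨hu1, -⟩, hu2⟩
    exact e0 (c := Y) (d := Y + H) (by omega) (by omega) ⟨hu1, hu2⟩
  rw [mem_rc] at h1g h2g h3g h4g
  rcases hz' with hz' | hz' <;> rcases hw' with hw' | hw'
  · -- N, N'
    left
    have k1 := hz'.mono (e0 (by omega) (by omega))
    have k2 := (hw'.symm.trans h3).mono (e0 (by omega) (by omega))
    exact bt_of ((k1.trans ezw).trans k2) (by omega) (by omega) (by omega)
  · -- N, S'
    right; right; left
    have k1 := (h1.symm.trans hz').mono (e0 (by omega) (by omega))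
    have k2 := (hw'.symm.trans h4).mono (e0 (by omega) (by omega))
    exact bt_of ((k1.trans ezw).trans k2).symm (by omega) (by omega) (by omega)
  · -- S, N'
    right; right; right
    have k1 := (h2.symm.trans hz').mono (e0 (by omega) (by omega))
    have k2 := (hw'.symm.trans h3).mono (e0 (by omega) (by omega))
    exact bt_of ((k1.trans ezw).trans k2) (by omega) (by omega) (by omega)
  · -- S, S'
    right; left
    have k1 := (h2.symm.trans hz').mono (e0 (by omega) (by omega))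
    have k2 := hw'.symm.mono (e0 (by omega) (by omega))
    exact bt_of ((k1.trans ezw).trans k2) (by omega) (by omega) (by omega)

end Vale.Agent.P159.TM.H285
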