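import Vale.Agent.P159.TM.H285.RswGeo

/-!
P159 / A6, RSW theorem of 935: probability part of (L1), (L2), (L3).
-/

namespace Vale.Agent.P159.TM.H285

open Vale.Agent.P145.FB Vale.Agent.P153.Topo

/-- the long side -/
def Lg (B : ℤ) : ℤ := B + (B + 4) / 5

/-- probability of a long crossing at scale `B` -/
noncomputable def eps (P : PP) (B : ℤ) : ℝ := P.L (Lg B) B

/-- height of the arm box -/
def Wd (B : ℤ) : ℤ := B - B / 40

/-- a gap of side `r` near the bottom of the arm box is joined to its top -/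
def ARM (P : PP) (c : ℝ) (B r : ℤ) : Prop :=
  ∃ p q : ℤ, 0 ≤ p ∧ p + r ≤ B ∧ 0 ≤ q ∧ 26 * (q + r) ≤ B ∧ c ≤ P.p (Up 0 B 0 (Wd B) p q r)

theorem IL_diff {Q : Set (ℤ × ℤ) → Prop} (hQ : IL Q) (G : Set (ℤ × ℤ)) :
    IL (fun S => Q (S \ G)) := by
  refine ⟨fun S T h hS => hQ.1 _ _ (Set.sdiff_subset_sdiff_left h) hS, ?_⟩
  obtain ⟨N, hN⟩ := hQ.2
  refine ⟨N, fun S T h hS => hN _ _ (fun z h1 h2 => ?_) hS⟩
  have := h z h1 h2
  simp only [Set.mem_sdiff, this]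

theorem bt_le (P : PP) {B X c d : ℤ} (hB : 0 ≤ B) (h : Lg B ≤ d - c) :
    P.p (BTc X (X + B) c d) ≤ eps P B := by
  rw [P.B_eq', eps]
  refine P.L_mono geo ?_ h (by omega)
  unfold Lg
  omega

theorem un_le (P : PP) (Q : ℕ → Set (ℤ × ℤ) → Prop) (K : ℕ) {x : ℝ}
    (h : ∀ i, i < K + 1 → P.p (Q i) ≤ x) :
    P.p (fun S => ∃ i, i < K + 1 ∧ Q i S) ≤ (K + 1) * x := by
  induction K with
  | zero =>
    have h1 : P.p (fun S => ∃ i, i < 0 + 1 ∧ Q i S) ≤ P.p (Q 0) := by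
      refine P.mono _ _ ?_
      rintro S ⟨i, hi, hS⟩
      have : i = 0 := by omega
      rwa [this] at hS
    have h2 := h 0 (by omega)
    push_cast
    linarith
  | succ K ih =>
    have h1 := ih fun i hi => h i (by omega)
    have h2 := h (K + 1) (by omega)
    have h3 : P.p (fun S => ∃ i, i < K + 1 + 1 ∧ Q i S) ≤
        P.p (fun S => (∃ i, i < K + 1 ∧ Q i S) ∨ Q (K + 1) S) := by
      refine P.mono _ _ ?_
      rintro S ⟨i, hi, hS⟩
      rcases Nat.lt_or_ge i (K + 1) with h4 | h4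
      · exact Or.inl ⟨i, h4, hS⟩
      · have : i = K + 1 := by omega
        rw [this] at hS
        exact Or.inr hS
    have h4 := P.or_le (fun S => ∃ i, i < K + 1 ∧ Q i S) (Q (K + 1))
    push_cast
    linarith

/-- the event: the box of height `Lg B + 2 (B/50)` is crossed from left to right avoiding the two
gaps -/
def Avd (B r p q X Y : ℤ) (S : Set (ℤ × ℤ)) : Prop :=
  LRc X (X + B) Y (Y + (Lg B + 2 * (B / 50)))
    (S \ (rc (X + p) (X + p + r) (Y + (Wd B - q - B / 2 - r)) (Y + (Wd B - q - B / 2 - r) + r) ∪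
      rc (X + p) (X + p + r) (Y + (Wd B - q - B / 2 - r) + B / 2)
        (Y + (Wd B - q - B / 2 - r) + B / 2 + r)))

theorem IL_Avd (B r p q X Y : ℤ) : IL (Avd B r p q X Y) := IL_diff (IL_LRc _ _ _ _) _

/-- **(L1)** -/
theorem l1 (P : PP) {c : ℝ} (hc : 0 < c) {B r p q : ℤ} (hB : 200 ≤ B) (hr : 0 ≤ r) (hp : 0 ≤ p)
    (hpr : p + r ≤ B) (hq : 0 ≤ q) (hqr : 26 * (q + r) ≤ B)
    (hU : c ≤ P.p (Up 0 B 0 (Wd B) p q r)) (X Y : ℤ) :
    P.p (Avd B r p q X Y) * c ^ 4 ≤ 4 * eps P B := by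
  obtain ⟨v, hv⟩ : ∃ v, v = Y + (Wd B - q - B / 2 - r) := ⟨_, rfl⟩
  obtain ⟨a, ha⟩ : ∃ a, a = Wd B - q := ⟨_, rfl⟩
  have hWd : Wd B = B - B / 40 := rfl
  have hLg : Lg B = B + (B + 4) / 5 := rfl
  have hN : c ≤ P.p (Up X (X + B) (v - q) (v + a) (X + p) v r) := by
    rw [ha, p_N]; exact hU
  have hS : c ≤ P.p (Dn X (X + B) (v + r - a) (v + r + q) (X + p) v r) := by
    rw [ha, p_S]; exact hU
  have hN' : c ≤ P.p (Up X (X + B) (v + B / 2 - q) (v + B / 2 + a) (X + p) (v + B / 2) r) := by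
    rw [ha, p_N]; exact hU
  have hS' : c ≤ P.p (Dn X (X + B) (v + B / 2 + r - a) (v + B / 2 + r + q) (X + p)
      (v + B / 2) r) := by
    rw [ha, p_S]; exact hU
  have k1 := P.fkg2 (T := fun S => Up X (X + B) (v - q) (v + a) (X + p) v r S ∧
      Dn X (X + B) (v + r - a) (v + r + q) (X + p) v r S) (IL_Up _ _ _ _ _ _ _)
    (IL_Dn _ _ _ _ _ _ _) (fun S h1 h2 => ⟨h1, h2⟩) hc.le hc.le hN hS
  have k2 := P.fkg2 (T := fun S => Up X (X + B) (v + B / 2 - q) (v + B / 2 + a) (X + p)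
      (v + B / 2) r S ∧ Dn X (X + B) (v + B / 2 + r - a) (v + B / 2 + r + q) (X + p)
      (v + B / 2) r S) (IL_Up _ _ _ _ _ _ _)
    (IL_Dn _ _ _ _ _ _ _) (fun S h1 h2 => ⟨h1, h2⟩) hc.le hc.le hN' hS'
  have k3 := P.fkg3 (T := fun S => BTc X (X + B) (v + r) (v + B / 2 + a) S ∨
      BTc X (X + B) (v + r - a) (v + B / 2) S ∨ BTc X (X + B) (v + B / 2 + r - a) (v + a) S ∨
      BTc X (X + B) (v + r - a) (v + B / 2 + a) S) (IL_Avd B r p q X Y)
    ((IL_Up X (X + B) (v - q) (v + a) (X + p) v r).and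
      (IL_Dn X (X + B) (v + r - a) (v + r + q) (X + p) v r))
    ((IL_Up X (X + B) (v + B / 2 - q) (v + B / 2 + a) (X + p) (v + B / 2) r).and
      (IL_Dn X (X + B) (v + B / 2 + r - a) (v + B / 2 + r + q) (X + p) (v + B / 2) r))
    (fun S h1 h2 h3 => by
      unfold Avd at h1
      rw [← hv] at h1
      exact det1 (H := Lg B + 2 * (B / 50)) (D := B / 2) (Y := Y) hp hpr hr hq (by omega)
        (by omega) (by omega) (by omega) (by omega) h1 h2.1 h2.2 h3.1 h3.2)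
    (P.nonneg _) (mul_nonneg hc.le hc.le) (mul_nonneg hc.le hc.le) le_rfl k1 k2
  have e1 : P.p (BTc X (X + B) (v + r) (v + B / 2 + a)) ≤ eps P B := bt_le P (by omega) (by omega)
  have e2 : P.p (BTc X (X + B) (v + r - a) (v + B / 2)) ≤ eps P B := bt_le P (by omega) (by omega)
  have e3 : P.p (BTc X (X + B) (v + B / 2 + r - a) (v + a)) ≤ eps P B :=
    bt_le P (by omega) (by omega)
  have e4 : P.p (BTc X (X + B) (v + r - a) (v + B / 2 + a)) ≤ eps P B :=
    bt_le P (by omega) (by omega)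
  have o1 := P.or_le (BTc X (X + B) (v + r) (v + B / 2 + a)) (fun S =>
      BTc X (X + B) (v + r - a) (v + B / 2) S ∨ BTc X (X + B) (v + B / 2 + r - a) (v + a) S ∨
      BTc X (X + B) (v + r - a) (v + B / 2 + a) S)
  have o2 := P.or_le (BTc X (X + B) (v + r - a) (v + B / 2)) (fun S =>
      BTc X (X + B) (v + B / 2 + r - a) (v + a) S ∨
      BTc X (X + B) (v + r - a) (v + B / 2 + a) S)
  have o3 := P.or_le (BTc X (X + B) (v + B / 2 + r - a) (v + a))
    (BTc X (X + B) (v + r - a) (v + B / 2 + a))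
  have k4 : P.p (Avd B r p q X Y) * c ^ 4 = P.p (Avd B r p q X Y) * (c * c) * (c * c) := by ring
  rw [k4]
  linarith

/-- **(L2), deterministic part**; `f i`, `f i + D` are the heights of the two gaps of the window `i`,
`y i = min (i m) (B - H)` its lower side -/
theorem det2 {B W s p r b D m h : ℤ} {K : ℕ} {S : Set (ℤ × ℤ)} (hm : 1 ≤ m) (hs : 0 ≤ s)
    (hsW : s ≤ W) (hh : 0 ≤ h) (hK : B < K * m) (hc : LRc 0 W 0 B S) :
    (∃ i, i < K ∧ BTc (W - s) (W - s + s) (i * m) (i * m + h) S) ∨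
    (∃ i, i < K ∧ LRc (W - s) (W - s + s) (min (i * m) (B - (h + 2 * m)))
      (min (i * m) (B - (h + 2 * m)) + (h + 2 * m))
      (S \ (rc (W - s + p) (W - s + p + r) (min (i * m) (B - (h + 2 * m)) + b)
          (min (i * m) (B - (h + 2 * m)) + b + r) ∪
        rc (W - s + p) (W - s + p + r) (min (i * m) (B - (h + 2 * m)) + b + D)
          (min (i * m) (B - (h + 2 * m)) + b + D + r)))) ∨
    (∃ i, i < K ∧ Lf 0 W 0 B (W - s + p) (min (i * m) (B - (h + 2 * m)) + b) r S) ∨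
    ∃ i, i < K ∧ Lf 0 W 0 B (W - s + p) (min (i * m) (B - (h + 2 * m)) + b + D) r S := by
  obtain ⟨x, y, hxy, hx, hy⟩ := hc
  obtain ⟨z, w, hz, hw, hzw, hxz, hxw⟩ := hxy.exit (f := Prod.fst) nn_fst (c := 2 * (W - s))
    (d := 2 * W) (by omega) (by omega) (by omega)
  have hzw' : NC (S ∩ rc (W - s) (W - s + s) 0 B) z w := by
    refine hzw.mono ?_
    rintro u ⟨⟨hu1, hu2⟩, hu3, hu4⟩
    rw [mem_rc] at hu2
    exact ⟨hu1, by rw [mem_rc]; omega⟩
  set C : Set (ℤ × ℤ) := {u | NC (S ∩ rc (W - s) (W - s + s) 0 B) z u} with hC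
  have hCr : ∀ u ∈ C, 2 * (W - s) ≤ u.1 ∧ u.1 ≤ 2 * W ∧ 0 ≤ u.2 ∧ u.2 ≤ 2 * B := by
    intro u hu
    have h1 := (NC.right_mem hu).2
    rw [mem_rc] at h1
    omega
  -- the lowest point
  obtain ⟨n0, hn0, hmin⟩ : ∃ n0 : ℕ, (∃ u ∈ C, u.2 = n0) ∧ ∀ u ∈ C, (n0 : ℤ) ≤ u.2 := by
    classical
    have hex : ∃ n : ℕ, ∃ u ∈ C, u.2 = n := by
      have hzC : z ∈ C := NC.refl hzw'.left_mem
      refine ⟨z.2.toNat, z, hzC, ?_⟩
      have := hCr z hzC
      omega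
    refine ⟨Nat.find hex, Nat.find_spec hex, fun u hu => ?_⟩
    have h1 := hCr u hu
    have h2 := Nat.find_min' hex (m := u.2.toNat) ⟨u, hu, by omega⟩
    omega
  obtain ⟨u0, hu0, hu0n⟩ := hn0
  have hu0r := hCr u0 hu0
  -- the index
  obtain ⟨i, hi1, hi2⟩ : ∃ i : ℕ, 2 * ((i : ℤ) * m) ≤ n0 ∧ (n0 : ℤ) < 2 * ((i : ℤ) * m) + 2 * m := by
    refine ⟨((n0 : ℤ) / (2 * m)).toNat, ?_⟩
    have h1 := Int.emod_add_mul_ediv (n0 : ℤ) (2 * m)
    have h2 := Int.emod_nonneg (n0 : ℤ) (b := 2 * m) (by omega)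
    have h3 := Int.emod_lt_of_pos (n0 : ℤ) (b := 2 * m) (by omega)
    have h4 : 0 ≤ (n0 : ℤ) / (2 * m) := Int.ediv_nonneg (by omega) (by omega)
    rw [Int.toNat_of_nonneg h4]
    have h5 : 2 * m * ((n0 : ℤ) / (2 * m)) = 2 * ((n0 : ℤ) / (2 * m) * m) := by ring
    rw [h5] at h1
    omega
  have hiK : ∀ j : ℕ, (j : ℤ) * m ≤ B → j < K := by
    intro j hj
    by_contra hcon
    have h1 : (K : ℤ) * m ≤ j * m := mul_le_mul_of_nonneg_right (by exact_mod_cast not_lt.1 hcon)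
      (by omega)
    omega
  by_cases hA : ∃ u ∈ C, (n0 : ℤ) + 2 * (h + m) ≤ u.2
  · -- large vertical extent
    left
    obtain ⟨u, hu, hun⟩ := hA
    have hur := hCr u hu
    have hpath : NC (S ∩ rc (W - s) (W - s + s) 0 B) u0 u := (NC.symm hu0).trans hu
    rcases eq_or_lt_of_le hi1 with h1 | h1
    · refine ⟨i, hiK i (by omega), bt_of hpath (by omega) (by omega) (by omega)⟩
    · have e : (((i + 1 : ℕ) : ℤ)) * m = i * m + m := by push_cast; ring
      refine ⟨i + 1, hiK (i + 1) (by rw [e]; omega), ?_⟩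
      rw [e]
      exact bt_of hpath (by omega) (by omega) (by omega)
  · push Not at hA
    right
    have hiK' := hiK i (by omega)
    have hsub : ∀ u ∈ C, u ∈ rc (W - s) (W - s + s) (min (i * m) (B - (h + 2 * m)))
        (min (i * m) (B - (h + 2 * m)) + (h + 2 * m)) := by
      intro u hu
      have h1 := hCr u hu
      have h2 := hA u hu
      have h3 := hmin u hu
      rw [mem_rc]
      omega
    by_cases hG : ∃ u ∈ C, u ∈ (rc (W - s + p) (W - s + p + r) (min (i * m) (B - (h + 2 * m)) + b)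
          (min (i * m) (B - (h + 2 * m)) + b + r) ∪
        rc (W - s + p) (W - s + p + r) (min (i * m) (B - (h + 2 * m)) + b + D)
          (min (i * m) (B - (h + 2 * m)) + b + D + r) : Set (ℤ × ℤ))
    · right
      obtain ⟨u, hu, huG⟩ := hG
      have hpath : NC (S ∩ rc 0 W 0 B) u x := by
        refine NC.trans (NC.mono ?_ (NC.symm hu)) hxz.symm
        rintro v ⟨hv1, hv2⟩
        rw [mem_rc] at hv2
        exact ⟨hv1, by rw [mem_rc]; omega⟩
      rcases huG with huG | huG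
      · exact Or.inl ⟨i, hiK', u, x, hpath, huG, hx⟩
      · exact Or.inr ⟨i, hiK', u, x, hpath, huG, hx⟩
    · left
      push Not at hG
      refine ⟨i, hiK', z, w, ?_, hz, by omega⟩
      refine NC.mono ?_ hzw'.cluster
      intro u hu
      exact ⟨⟨(NC.right_mem hu).1, hG u hu⟩, hsub u hu⟩

/-- the constant bookkeeping of (L2) -/
theorem l2_num {p0 c : ℝ} (hp0 : 0 < p0) (hp1 : p0 ≤ 1) (hc : c = p0 / 6000) :
    1800 * c ^ 6 + (1800 * (4 * c ^ 2) + (1800 * c + 1800 * c)) < p0 := by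
  have h0 : 0 < c := by rw [hc]; positivity
  have h1 : c ≤ 1 / 6000 := by rw [hc]; linarith
  have h2 : p0 = 6000 * c := by rw [hc]; ring
  have h3 : c ^ 2 ≤ 1 / 6000 * c := by nlinarith
  have h4 : c ^ 6 ≤ c := by
    calc c ^ 6 ≤ c ^ 1 := pow_le_pow_of_le_one h0.le (by linarith) (by norm_num)
      _ = c := pow_one c
  rw [h2]
  nlinarith

end Vale.Agent.P159.TM.H285
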