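import Vale.Agent.P159.TM.H285.RswL

/-!
P159 / A6, RSW theorem of 935: (L2), (L3), induction on scales.
-/

namespace Vale.Agent.P159.TM.H285

open Vale.Agent.P145.FB Vale.Agent.P153.Topo

/-- **(L2)** -/
theorem l2 (P : PP) {p0 c : ℝ} (hp0 : 0 < p0) (hp1 : p0 ≤ 1) (hc : c = p0 / 6000) {B r : ℤ}
    (hr : 0 ≤ r) (hB : 5200 * r + 5226 ≤ B) (hsq : p0 ≤ P.L (Wd B) B)
    (he : eps P (B / 26) ≤ c ^ 6) (hA : ARM P c (B / 26) r) : ARM P c B r := by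
  have hc0 : 0 < c := by rw [hc]; positivity
  obtain ⟨s, hs⟩ : ∃ s, s = B / 26 := ⟨_, rfl⟩
  rw [← hs] at he hA
  obtain ⟨p, q, hp, hpr, hq, hqr, hU⟩ := hA
  by_contra hcon
  have hWd : Wd B = B - B / 40 := rfl
  have hWs : Wd s = s - s / 40 := rfl
  have hLs : Lg s = s + (s + 4) / 5 := rfl
  obtain ⟨X, hX⟩ : ∃ X, X = Wd B - s := ⟨_, rfl⟩
  obtain ⟨m, hm⟩ : ∃ m, m = s / 50 := ⟨_, rfl⟩
  obtain ⟨b, hb⟩ : ∃ b, b = Wd s - q - s / 2 - r := ⟨_, rfl⟩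
  -- gaps which are reached with a small probability only
  have hsmall : ∀ w : ℤ, 0 ≤ w → w + r ≤ B → P.p (Lf 0 (Wd B) 0 B (X + p) w r) ≤ c := by
    intro w hw hw'
    by_contra h
    push Not at h
    refine hcon ⟨w, Wd B - (X + p) - r, hw, hw', by omega, by omega, ?_⟩
    rw [p_Up_Lf]
    exact h.le
  have hdet := P.mono (LRc 0 (Wd B) 0 B) _ (fun S hS => det2 (B := B) (W := Wd B) (s := s)
    (p := p) (r := r) (b := b) (D := s / 2) (m := m) (h := Lg s) (K := 1799 + 1) (by omega)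
    (by omega) (by omega) (by omega) (by push_cast; omega) hS)
  rw [← hX] at hdet
  have u1 := un_le P (fun i => BTc X (X + s) ((i : ℤ) * m) (i * m + Lg s)) 1799 (x := c ^ 6)
    (fun i _ => (bt_le P (by omega) (by omega)).trans he)
  have u2 := un_le P (fun i => Avd s r p q X (min ((i : ℤ) * m) (B - (Lg s + 2 * m)))) 1799
    (x := 4 * c ^ 2) (fun i _ => by
      have h1 := l1 P hc0 (B := s) (by omega) hr hp hpr hq hqr hU X
        (min ((i : ℤ) * m) (B - (Lg s + 2 * m)))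
      have h2 : P.p (Avd s r p q X (min ((i : ℤ) * m) (B - (Lg s + 2 * m)))) * c ^ 4 ≤
          4 * c ^ 2 * c ^ 4 := h1.trans (by nlinarith)
      exact le_of_mul_le_mul_right h2 (by positivity))
  have hlow : ∀ i : ℕ, 0 ≤ min ((i : ℤ) * m) (B - (Lg s + 2 * m)) := by
    intro i
    have : 0 ≤ (i : ℤ) * m := mul_nonneg (Int.natCast_nonneg _) (by omega)
    omega
  have u3 := un_le P (fun i => Lf 0 (Wd B) 0 B (X + p)
      (min ((i : ℤ) * m) (B - (Lg s + 2 * m)) + b) r) 1799 (x := c) (fun i _ => by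
    have h1 := hlow i
    exact hsmall _ (by omega) (by omega))
  have u4 := un_le P (fun i => Lf 0 (Wd B) 0 B (X + p)
      (min ((i : ℤ) * m) (B - (Lg s + 2 * m)) + b + s / 2) r) 1799 (x := c) (fun i _ => by
    have h1 := hlow i
    exact hsmall _ (by omega) (by omega))
  have o1 := P.or_le (fun S => ∃ i : ℕ, i < 1799 + 1 ∧ BTc X (X + s) ((i : ℤ) * m) (i * m + Lg s) S)
    (fun S => (∃ i : ℕ, i < 1799 + 1 ∧ Avd s r p q X (min ((i : ℤ) * m) (B - (Lg s + 2 * m))) S) ∨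
      (∃ i : ℕ, i < 1799 + 1 ∧ Lf 0 (Wd B) 0 B (X + p)
        (min ((i : ℤ) * m) (B - (Lg s + 2 * m)) + b) r S) ∨
      ∃ i : ℕ, i < 1799 + 1 ∧ Lf 0 (Wd B) 0 B (X + p)
        (min ((i : ℤ) * m) (B - (Lg s + 2 * m)) + b + s / 2) r S)
  have o2 := P.or_le
    (fun S => ∃ i : ℕ, i < 1799 + 1 ∧ Avd s r p q X (min ((i : ℤ) * m) (B - (Lg s + 2 * m))) S)
    (fun S => (∃ i : ℕ, i < 1799 + 1 ∧ Lf 0 (Wd B) 0 B (X + p)
        (min ((i : ℤ) * m) (B - (Lg s + 2 * m)) + b) r S) ∨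
      ∃ i : ℕ, i < 1799 + 1 ∧ Lf 0 (Wd B) 0 B (X + p)
        (min ((i : ℤ) * m) (B - (Lg s + 2 * m)) + b + s / 2) r S)
  have o3 := P.or_le (fun S => ∃ i : ℕ, i < 1799 + 1 ∧ Lf 0 (Wd B) 0 B (X + p)
        (min ((i : ℤ) * m) (B - (Lg s + 2 * m)) + b) r S)
    (fun S => ∃ i : ℕ, i < 1799 + 1 ∧ Lf 0 (Wd B) 0 B (X + p)
        (min ((i : ℤ) * m) (B - (Lg s + 2 * m)) + b + s / 2) r S)
  have hcmp : P.p (fun S =>
      (∃ i : ℕ, i < 1799 + 1 ∧ BTc X (X + s) ((i : ℤ) * m) (i * m + Lg s) S) ∨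
    (∃ i : ℕ, i < 1799 + 1 ∧ LRc X (X + s) (min ((i : ℤ) * m) (B - (Lg s + 2 * m)))
      (min ((i : ℤ) * m) (B - (Lg s + 2 * m)) + (Lg s + 2 * m))
      (S \ (rc (X + p) (X + p + r) (min ((i : ℤ) * m) (B - (Lg s + 2 * m)) + b)
          (min ((i : ℤ) * m) (B - (Lg s + 2 * m)) + b + r) ∪
        rc (X + p) (X + p + r) (min ((i : ℤ) * m) (B - (Lg s + 2 * m)) + b + s / 2)
          (min ((i : ℤ) * m) (B - (Lg s + 2 * m)) + b + s / 2 + r)))) ∨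
    (∃ i : ℕ, i < 1799 + 1 ∧ Lf 0 (Wd B) 0 B (X + p)
      (min ((i : ℤ) * m) (B - (Lg s + 2 * m)) + b) r S) ∨
    ∃ i : ℕ, i < 1799 + 1 ∧ Lf 0 (Wd B) 0 B (X + p)
      (min ((i : ℤ) * m) (B - (Lg s + 2 * m)) + b + s / 2) r S) ≤
    P.p (fun S => (∃ i : ℕ, i < 1799 + 1 ∧ BTc X (X + s) ((i : ℤ) * m) (i * m + Lg s) S) ∨
      (∃ i : ℕ, i < 1799 + 1 ∧
        Avd s r p q X (min ((i : ℤ) * m) (B - (Lg s + 2 * m))) S) ∨
      (∃ i : ℕ, i < 1799 + 1 ∧ Lf 0 (Wd B) 0 B (X + p)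
        (min ((i : ℤ) * m) (B - (Lg s + 2 * m)) + b) r S) ∨
      ∃ i : ℕ, i < 1799 + 1 ∧ Lf 0 (Wd B) 0 B (X + p)
        (min ((i : ℤ) * m) (B - (Lg s + 2 * m)) + b + s / 2) r S) := by
    refine P.mono _ _ ?_
    rintro S (h | h | h | h)
    · exact Or.inl h
    · right; left
      obtain ⟨i, hi, h⟩ := h
      refine ⟨i, hi, ?_⟩
      unfold Avd
      rw [← hb, ← hm]
      exact h
    · exact Or.inr (Or.inr (Or.inl h))
    · exact Or.inr (Or.inr (Or.inr h))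
  have hnum := l2_num hp0 hp1 hc
  have hL : P.p (LRc 0 (Wd B) 0 B) = P.L (Wd B) B := rfl
  rw [hL] at hdet
  rw [show ((1799 : ℕ) : ℝ) + 1 = 1800 by norm_num] at u1 u2 u3 u4
  linarith [hdet.trans hcmp]

/-- **(L3)** -/
theorem l3 (P : PP) {p0 c : ℝ} (hp0 : 0 < p0) (hc : c = p0 / 6000) {B r : ℤ}
    (hr : 100 ≤ r) (h1 : 26 * r ≤ B) (h2 : B < 5200 * r + 5226) (hsq : p0 ≤ P.L (Wd B) B) :
    ARM P c B r := by
  have hc0 : 0 < c := by rw [hc]; positivity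
  by_contra hcon
  have hWd : Wd B = B - B / 40 := rfl
  have hsmall : ∀ w : ℤ, 0 ≤ w → w + r ≤ B → P.p (Lf 0 (Wd B) 0 B (Wd B - r) w r) ≤ c := by
    intro w hw hw'
    by_contra h
    push Not at h
    refine hcon ⟨w, Wd B - (Wd B - r) - r, hw, hw', by omega, by omega, ?_⟩
    rw [p_Up_Lf]
    exact h.le
  have hdet : P.p (LRc 0 (Wd B) 0 B) ≤ P.p (fun S => ∃ i : ℕ, i < 5299 + 1 ∧
      Lf 0 (Wd B) 0 B (Wd B - r) (min ((i : ℤ) * r) (B - r)) r S) := by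
    refine P.mono _ _ ?_
    rintro S ⟨x, y, hxy, hx, hy⟩
    have hyr := hxy.right_mem.2
    rw [mem_rc] at hyr
    obtain ⟨i, hi1, hi2⟩ : ∃ i : ℕ, 2 * ((i : ℤ) * r) ≤ y.2 ∧ y.2 < 2 * ((i : ℤ) * r) + 2 * r := by
      refine ⟨(y.2 / (2 * r)).toNat, ?_⟩
      have h1 := Int.emod_add_mul_ediv y.2 (2 * r)
      have h2 := Int.emod_nonneg y.2 (b := 2 * r) (by omega)
      have h3 := Int.emod_lt_of_pos y.2 (b := 2 * r) (by omega)
      have h4 : 0 ≤ y.2 / (2 * r) := Int.ediv_nonneg (by omega) (by omega)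
      rw [Int.toNat_of_nonneg h4]
      have h5 : 2 * r * (y.2 / (2 * r)) = 2 * (y.2 / (2 * r) * r) := by ring
      rw [h5] at h1
      omega
    refine ⟨i, ?_, y, x, hxy.symm, ?_, hx⟩
    · by_contra hcon'
      have h3 : (5300 : ℤ) * r ≤ i * r := mul_le_mul_of_nonneg_right
        (by exact_mod_cast not_lt.1 hcon') (by omega)
      omega
    · rw [mem_rc]
      omega
  have u1 := un_le P (fun i => Lf 0 (Wd B) 0 B (Wd B - r) (min ((i : ℤ) * r) (B - r)) r) 5299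
    (x := c) (fun i _ => by
      have h3 : 0 ≤ (i : ℤ) * r := mul_nonneg (Int.natCast_nonneg _) (by omega)
      exact hsmall _ (by omega) (by omega))
  have hL : P.p (LRc 0 (Wd B) 0 B) = P.L (Wd B) B := rfl
  rw [hL] at hdet
  rw [show ((5299 : ℕ) : ℝ) + 1 = 5300 by norm_num] at u1
  have h6 : p0 = 6000 * c := by rw [hc]; ring
  linarith

/-- induction on scales -/
theorem arm (P : PP) {p0 c : ℝ} (hp0 : 0 < p0) (hp1 : p0 ≤ 1) (hc : c = p0 / 6000) {r n : ℤ}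
    (hr : 100 ≤ r) (hsq : ∀ B, 1000 ≤ B → B ≤ n → p0 ≤ P.L (Wd B) B) :
    ∀ k : ℕ, ∀ B : ℤ, B ≤ k → 200 * r ≤ B → B ≤ n →
      (∀ t, r < t → t < B → eps P t ≤ c ^ 6) → ARM P c B r := by
  intro k
  induction k with
  | zero => intro B h1 h2; omega
  | succ k ih =>
    intro B h1 h2 h3 h4
    have hs := hsq B (by omega) h3
    rcases lt_or_ge B (5200 * r + 5226) with h5 | h5
    · exact l3 P hp0 hc hr (by omega) h5 hs
    · refine l2 P hp0 hp1 hc (by omega) h5 hs (h4 _ (by omega) (by omega)) ?_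
      refine ih (B / 26) ?_ (by omega) (by omega) (fun t ht ht' => h4 t ht (by omega))
      push_cast at h1
      omega

end Vale.Agent.P159.TM.H285
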