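import Vale.Agent.P159.TM.H285.RswF

/-!
P159 / A6: RSW with input in a bounded window of scales at the top (885): general constants in
(L2), easy crossings from arms, weak squares from easy crossings, the bottom scale.
-/

namespace Vale.Agent.P159.TM.H285

open Vale.Agent.P145.FB Vale.Agent.P153.Topo

/-- **(L2)** with free constants -/
theorem l2g (P : PP) {p0 c e : ℝ} (hc0 : 0 < c)
    (hnum : 1800 * e + (1800 * (4 * e / c ^ 4) + (1800 * (p0 / 6000) + 1800 * (p0 / 6000))) < p0)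
    {B r : ℤ} (hr : 0 ≤ r) (hB : 5200 * r + 5226 ≤ B) (hsq : p0 ≤ P.L (Wd B) B)
    (he : eps P (B / 26) ≤ e) (hA : ARM P c (B / 26) r) : ARM P (p0 / 6000) B r := by
  obtain ⟨s, hs⟩ : ∃ s, s = B / 26 := ⟨_, rfl⟩
  rw [← hs] at he hA
  obtain ⟨p, q, hp, hpr, hq, hqr, hU⟩ := hA
  by_contra hcon
  have hWd : Wd B = B - B / 40 := rfl
  have hWs : Wd s = s - s / 40 := rfl
  have hLs : Lg s = s + (s + 4) / 5 := rfl
  obtain ⟨X, hX⟩ : ∃ X, X = Wd B - s := ⟨_, rfl⟩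
  obtain ⟨m, hm⟩ : ∃ m, m = s / 50 := ⟨_, rfl⟩
  obtain ⟨b, hb⟩ : ∃ b, b = Wd s - q - s / 2 - r := ⟨_, rfl⟩
  have hsmall : ∀ w : ℤ, 0 ≤ w → w + r ≤ B → P.p (Lf 0 (Wd B) 0 B (X + p) w r) ≤ p0 / 6000 := by
    intro w hw hw'
    by_contra h
    push Not at h
    refine hcon ⟨w, Wd B - (X + p) - r, hw, hw', by omega, by omega, ?_⟩
    rw [p_Up_Lf]
    exact h.le
  have hdet := P.mono (LRc 0 (Wd B) 0 B) _ (fun S hS => det2 (B := B) (W := Wd B) (s := s)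
    (p := p) (r := r) (b := b) (D := s / 2) (m := m) (h := Lg s) (K := 1799 + 1) (by omega)
    (by omega) (by omega) (by omega) (by push_cast; omega) hS)
  rw [← hX] at hdet
  have u1 := un_le P (fun i => BTc X (X + s) ((i : ℤ) * m) (i * m + Lg s)) 1799 (x := e)
    (fun i _ => (bt_le P (by omega) (by omega)).trans he)
  have u2 := un_le P (fun i => Avd s r p q X (min ((i : ℤ) * m) (B - (Lg s + 2 * m)))) 1799
    (x := 4 * e / c ^ 4) (fun i _ => by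
      have h1 := l1 P hc0 (B := s) (by omega) hr hp hpr hq hqr hU X
        (min ((i : ℤ) * m) (B - (Lg s + 2 * m)))
      rw [le_div_iff₀ (by positivity)]
      exact h1.trans (by linarith))
  have hlow : ∀ i : ℕ, 0 ≤ min ((i : ℤ) * m) (B - (Lg s + 2 * m)) := by
    intro i
    have : 0 ≤ (i : ℤ) * m := mul_nonneg (Int.natCast_nonneg _) (by omega)
    omega
  have u3 := un_le P (fun i => Lf 0 (Wd B) 0 B (X + p)
      (min ((i : ℤ) * m) (B - (Lg s + 2 * m)) + b) r) 1799 (x := p0 / 6000) (fun i _ => by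
    have h1 := hlow i
    exact hsmall _ (by omega) (by omega))
  have u4 := un_le P (fun i => Lf 0 (Wd B) 0 B (X + p)
      (min ((i : ℤ) * m) (B - (Lg s + 2 * m)) + b + s / 2) r) 1799 (x := p0 / 6000)
      (fun i _ => by
    have h1 := hlow i
    exact hsmall _ (by omega) (by omega))
  have o1 := P.or_le
    (fun S => ∃ i : ℕ, i < 1799 + 1 ∧ BTc X (X + s) ((i : ℤ) * m) (i * m + Lg s) S)
    (fun S => (∃ i : ℕ, i < 1799 + 1 ∧
        Avd s r p q X (min ((i : ℤ) * m) (B - (Lg s + 2 * m))) S) ∨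
      (∃ i : ℕ, i < 1799 + 1 ∧ Lf 0 (Wd B) 0 B (X + p)
        (min ((i : ℤ) * m) (B - (Lg s + 2 * m)) + b) r S) ∨
      ∃ i : ℕ, i < 1799 + 1 ∧ Lf 0 (Wd B) 0 B (X + p)
        (min ((i : ℤ) * m) (B - (Lg s + 2 * m)) + b + s / 2) r S)
  have o2 := P.or_le
    (fun S => ∃ i : ℕ, i < 1799 + 1 ∧ Avd s r p q X (min ((i : ℤ) * m) (B - (Lg s + 2 * m))) S)
    (fun S => (∃ i : ℕ, i < 1799 + 1 ∧ Lf 0 (Wd B) 0 B (X + p)
        (min ((i : ℤ) * m) (B - (Lg s + 2 * m)) + b) r S) ∨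
      ∃ i : ℕ, i < 1799 + 1 ∧ Lf 0 (Wd B) 0 B (X + p)
        (min ((i : ℤ) * m) (B - (Lg s + 2 * m)) + b + s / 2) r S)
  have o3 := P.or_le (fun S => ∃ i : ℕ, i < 1799 + 1 ∧ Lf 0 (Wd B) 0 B (X + p)
        (min ((i : ℤ) * m) (B - (Lg s + 2 * m)) + b) r S)
    (fun S => ∃ i : ℕ, i < 1799 + 1 ∧ Lf 0 (Wd B) 0 B (X + p)
        (min ((i : ℤ) * m) (B - (Lg s + 2 * m)) + b + s / 2) r S)
  have hcmp : P.p (fun S =>
      (∃ i : ℕ, i < 1799 + 1 ∧ BTc X (X + s) ((i : ℤ) * m) (i * m + Lg s) S) ∨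
    (∃ i : ℕ, i < 1799 + 1 ∧ LRc X (X + s) (min ((i : ℤ) * m) (B - (Lg s + 2 * m)))
      (min ((i : ℤ) * m) (B - (Lg s + 2 * m)) + (Lg s + 2 * m))
      (S \ (rc (X + p) (X + p + r) (min ((i : ℤ) * m) (B - (Lg s + 2 * m)) + b)
          (min ((i : ℤ) * m) (B - (Lg s + 2 * m)) + b + r) ∪
        rc (X + p) (X + p + r) (min ((i : ℤ) * m) (B - (Lg s + 2 * m)) + b + s / 2)
          (min ((i : ℤ) * m) (B - (Lg s + 2 * m)) + b + s / 2 + r)))) ∨
    (∃ i : ℕ, i < 1799 + 1 ∧ Lf 0 (Wd B) 0 B (X + p)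
      (min ((i : ℤ) * m) (B - (Lg s + 2 * m)) + b) r S) ∨
    ∃ i : ℕ, i < 1799 + 1 ∧ Lf 0 (Wd B) 0 B (X + p)
      (min ((i : ℤ) * m) (B - (Lg s + 2 * m)) + b + s / 2) r S) ≤
    P.p (fun S => (∃ i : ℕ, i < 1799 + 1 ∧ BTc X (X + s) ((i : ℤ) * m) (i * m + Lg s) S) ∨
      (∃ i : ℕ, i < 1799 + 1 ∧
        Avd s r p q X (min ((i : ℤ) * m) (B - (Lg s + 2 * m))) S) ∨
      (∃ i : ℕ, i < 1799 + 1 ∧ Lf 0 (Wd B) 0 B (X + p)
        (min ((i : ℤ) * m) (B - (Lg s + 2 * m)) + b) r S) ∨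
      ∃ i : ℕ, i < 1799 + 1 ∧ Lf 0 (Wd B) 0 B (X + p)
        (min ((i : ℤ) * m) (B - (Lg s + 2 * m)) + b + s / 2) r S) := by
    refine P.mono _ _ ?_
    rintro S (h | h | h | h)
    · exact Or.inl h
    · right; left
      obtain ⟨i, hi, h⟩ := h
      refine ⟨i, hi, ?_⟩
      unfold Avd
      rw [← hb, ← hm]
      exact h
    · exact Or.inr (Or.inr (Or.inl h))
    · exact Or.inr (Or.inr (Or.inr h))
  have hL : P.p (LRc 0 (Wd B) 0 B) = P.L (Wd B) B := rfl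
  rw [hL] at hdet
  rw [show ((1799 : ℕ) : ℝ) + 1 = 1800 by norm_num] at u1 u2 u3 u4
  linarith [hdet.trans hcmp]

/-- induction on scales, free constants -/
theorem armg (P : PP) {p0 c e : ℝ} (hp0 : 0 < p0) (hc : c = p0 / 6000)
    (hnum : 1800 * e + (1800 * (4 * e / c ^ 4) + (1800 * (p0 / 6000) + 1800 * (p0 / 6000))) < p0)
    {r n : ℤ} (hr : 100 ≤ r) (hsq : ∀ B, 200 * r ≤ B → B ≤ n → p0 ≤ P.L (Wd B) B) :
    ∀ k : ℕ, ∀ B : ℤ, B ≤ k → 200 * r ≤ B → B ≤ n →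
      (∀ t, 200 * r ≤ t → t < B → eps P t ≤ e) → ARM P c B r := by
  have hc0 : 0 < c := by rw [hc]; positivity
  intro k
  induction k with
  | zero => intro B h1 h2; omega
  | succ k ih =>
    intro B h1 h2 h3 h4
    have hs := hsq B (by omega) h3
    rcases lt_or_ge B (5200 * r + 5226) with h5 | h5
    · exact l3 P hp0 hc hr (by omega) h5 hs
    · rw [hc]
      refine l2g P hc0 hnum (by omega) h5 hs (h4 _ (by omega) (by omega)) ?_
      refine ih (B / 26) ?_ (by omega) (by omega) (fun t ht ht' => h4 t ht (by omega))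
      push_cast at h1
      omega

theorem lr_of {Y Y' lo hi c d : ℤ} {S : Set (ℤ × ℤ)} {x y : ℤ × ℤ}
    (h : NC (S ∩ rc lo hi Y Y') x y) (hx : x.1 ≤ 2 * c) (hcd : c ≤ d) (hy : 2 * d ≤ y.1) :
    LRc c d Y Y' S := by
  obtain ⟨z, w, hz, hw, hzw, _, _⟩ := h.exit (f := Prod.fst) nn_fst (c := 2 * c) (d := 2 * d)
    (by omega) hx hy
  refine ⟨z, w, hzw.mono ?_, hz, hw⟩
  rintro u ⟨⟨hu1, hu2⟩, hu3, hu4⟩
  rw [mem_rc] at hu2
  exact ⟨hu1, by rw [mem_rc]; omega⟩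

/-- an arm of a gap crosses one of the four rectangles around the gap -/
theorem det5 {a b c d p q r : ℤ} {S : Set (ℤ × ℤ)} (hr : 1 ≤ r) (hd : q + 2 * r ≤ d)
    (h : Up a b c d p q r S) :
    BTc (p - r) (p + 2 * r) (q + r) (q + 2 * r) S ∨ BTc (p - r) (p + 2 * r) (q - r) q S ∨
      LRc (p - r) p (q - r) (q + 2 * r) S ∨ LRc (p + r) (p + 2 * r) (q - r) (q + 2 * r) S := by
  obtain ⟨x, y, hxy, hx, hy⟩ := h
  rw [mem_rc] at hx
  set f : ℤ × ℤ → ℤ := fun z => max (max (2 * p - z.1) (z.1 - 2 * (p + r)))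
    (max (2 * q - z.2) (z.2 - 2 * (q + r))) with hf
  have hfl : ∀ u v, NN u v → f v ≤ f u + 1 := by
    intro u v huv
    unfold NN at huv
    simp only [hf]
    omega
  obtain ⟨z, hz, hxz⟩ := NC.first hfl (d := 2 * r) hxy (by simp only [hf]; omega)
    (by simp only [hf]; omega)
  have hpath : NC (S ∩ rc (p - r) (p + 2 * r) (q - r) (q + 2 * r)) x z := by
    refine hxz.mono ?_
    rintro u ⟨⟨hu1, -⟩, hu2⟩
    refine ⟨hu1, ?_⟩
    have hu3 : max (max (2 * p - u.1) (u.1 - 2 * (p + r)))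
      (max (2 * q - u.2) (u.2 - 2 * (q + r))) ≤ 2 * r := hu2
    rw [mem_rc]
    omega
  have hz' : max (max (2 * p - z.1) (z.1 - 2 * (p + r)))
      (max (2 * q - z.2) (z.2 - 2 * (q + r))) = 2 * r := hz
  have hside : 2 * (q + 2 * r) ≤ z.2 ∨ z.2 ≤ 2 * (q - r) ∨ z.1 ≤ 2 * (p - r) ∨
      2 * (p + 2 * r) ≤ z.1 := by omega
  rcases hside with h1 | h1 | h1 | h1
  · exact Or.inl (bt_of hpath (by omega) (by omega) h1)
  · exact Or.inr (Or.inl (bt_of hpath.symm h1 (by omega) (by omega)))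
  · exact Or.inr (Or.inr (Or.inl (lr_of hpath.symm h1 (by omega) (by omega))))
  · exact Or.inr (Or.inr (Or.inr (lr_of hpath (by omega) (by omega) h1)))

theorem easy_of_arm (P : PP) {c : ℝ} {B r : ℤ} (hr : 1 ≤ r) (hB : 26 * r ≤ B)
    (hA : ARM P c B r) : c / 4 ≤ P.L r (4 * r) := by
  obtain ⟨p, q, hp, hpr, hq, hqr, hU⟩ := hA
  have hWd : Wd B = B - B / 40 := rfl
  have h1 := P.mono _ _ (fun S hS => det5 (S := S) (a := 0) (b := B) (c := 0) (d := Wd B) (p := p)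
    (q := q) hr (by omega) hS)
  have o1 := P.or_le (BTc (p - r) (p + 2 * r) (q + r) (q + 2 * r)) (fun S =>
    BTc (p - r) (p + 2 * r) (q - r) q S ∨
      LRc (p - r) p (q - r) (q + 2 * r) S ∨ LRc (p + r) (p + 2 * r) (q - r) (q + 2 * r) S)
  have o2 := P.or_le (BTc (p - r) (p + 2 * r) (q - r) q) (fun S =>
      LRc (p - r) p (q - r) (q + 2 * r) S ∨ LRc (p + r) (p + 2 * r) (q - r) (q + 2 * r) S)
  have o3 := P.or_le (LRc (p - r) p (q - r) (q + 2 * r))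
    (LRc (p + r) (p + 2 * r) (q - r) (q + 2 * r))
  have e1 : P.p (BTc (p - r) (p + 2 * r) (q + r) (q + 2 * r)) ≤ P.L r (4 * r) := by
    rw [P.B_eq']; exact P.L_mono geo (by omega) (by omega) (by omega)
  have e2 : P.p (BTc (p - r) (p + 2 * r) (q - r) q) ≤ P.L r (4 * r) := by
    rw [P.B_eq']; exact P.L_mono geo (by omega) (by omega) (by omega)
  have e3 : P.p (LRc (p - r) p (q - r) (q + 2 * r)) ≤ P.L r (4 * r) := by
    rw [P.L_eq']; exact P.L_mono geo (by omega) (by omega) (by omega)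
  have e4 : P.p (LRc (p + r) (p + 2 * r) (q - r) (q + 2 * r)) ≤ P.L r (4 * r) := by
    rw [P.L_eq']; exact P.L_mono geo (by omega) (by omega) (by omega)
  linarith

/-- extent dichotomy -/
theorem det6 {s H m h : ℤ} {K : ℕ} {S : Set (ℤ × ℤ)} (hm : 1 ≤ m) (hs : 0 ≤ s) (hh : 0 ≤ h)
    (hK : H < K * m) (hc : LRc 0 s 0 H S) :
    (∃ i : ℕ, i < K ∧ BTc 0 s (i * m) (i * m + h) S) ∨
      ∃ i : ℕ, i < K ∧ LRc 0 s (i * m) (i * m + (h + 2 * m)) S := by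
  obtain ⟨z, w, hzw, hz, hw⟩ := hc
  set C : Set (ℤ × ℤ) := {u | NC (S ∩ rc 0 s 0 H) z u} with hC
  have hCr : ∀ u ∈ C, 0 ≤ u.1 ∧ u.1 ≤ 2 * s ∧ 0 ≤ u.2 ∧ u.2 ≤ 2 * H := by
    intro u hu
    have h1 := (NC.right_mem hu).2
    rw [mem_rc] at h1
    omega
  obtain ⟨n0, hn0, hmin⟩ : ∃ n0 : ℕ, (∃ u ∈ C, u.2 = n0) ∧ ∀ u ∈ C, (n0 : ℤ) ≤ u.2 := by
    classical
    have hex : ∃ n : ℕ, ∃ u ∈ C, u.2 = n := by
      have hzC : z ∈ C := NC.refl hzw.left_mem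
      refine ⟨z.2.toNat, z, hzC, ?_⟩
      have := hCr z hzC
      omega
    refine ⟨Nat.find hex, Nat.find_spec hex, fun u hu => ?_⟩
    have h1 := hCr u hu
    have h2 := Nat.find_min' hex (m := u.2.toNat) ⟨u, hu, by omega⟩
    omega
  obtain ⟨u0, hu0, hu0n⟩ := hn0
  have hu0r := hCr u0 hu0
  obtain ⟨i, hi1, hi2⟩ : ∃ i : ℕ, 2 * ((i : ℤ) * m) ≤ n0 ∧ (n0 : ℤ) < 2 * ((i : ℤ) * m) + 2 * m := by
    refine ⟨((n0 : ℤ) / (2 * m)).toNat, ?_⟩
    have h1 := Int.emod_add_mul_ediv (n0 : ℤ) (2 * m)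
    have h2 := Int.emod_nonneg (n0 : ℤ) (b := 2 * m) (by omega)
    have h3 := Int.emod_lt_of_pos (n0 : ℤ) (b := 2 * m) (by omega)
    have h4 : 0 ≤ (n0 : ℤ) / (2 * m) := Int.ediv_nonneg (by omega) (by omega)
    rw [Int.toNat_of_nonneg h4]
    have h5 : 2 * m * ((n0 : ℤ) / (2 * m)) = 2 * ((n0 : ℤ) / (2 * m) * m) := by ring
    rw [h5] at h1
    omega
  have hiK : ∀ j : ℕ, (j : ℤ) * m ≤ H → j < K := by
    intro j hj
    by_contra hcon
    have h1 : (K : ℤ) * m ≤ j * m := mul_le_mul_of_nonneg_right (by exact_mod_cast not_lt.1 hcon)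
      (by omega)
    omega
  by_cases hA : ∃ u ∈ C, (n0 : ℤ) + 2 * (h + m) ≤ u.2
  · left
    obtain ⟨u, hu, hun⟩ := hA
    have hur := hCr u hu
    have hpath : NC (S ∩ rc 0 s 0 H) u0 u := (NC.symm hu0).trans hu
    rcases eq_or_lt_of_le hi1 with h1 | h1
    · exact ⟨i, hiK i (by omega), bt_of hpath (by omega) (by omega) (by omega)⟩
    · have e : (((i + 1 : ℕ) : ℤ)) * m = i * m + m := by push_cast; ring
      refine ⟨i + 1, hiK (i + 1) (by rw [e]; omega), ?_⟩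
      rw [e]
      exact bt_of hpath (by omega) (by omega) (by omega)
  · push Not at hA
    right
    refine ⟨i, hiK i (by omega), z, w, ?_, hz, hw⟩
    refine NC.mono ?_ hzw.cluster
    intro u hu
    have h1 := hCr u hu
    have h2 := hA u hu
    have h3 := hmin u hu
    refine ⟨(NC.right_mem hu).1, ?_⟩
    rw [mem_rc]
    omega

/-- weak squares from easy crossings -/
theorem sq_of_easy (P : PP) {c : ℝ} {s : ℤ} (hs : 100 ≤ s) (h : c ≤ P.L s (4 * s)) :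
    c / 1600 ≤ P.L s (s + s / 50 + 2) := by
  have h1 := P.mono (LRc 0 s 0 (4 * s)) _ (fun S hS => det6 (s := s) (H := 4 * s) (m := s / 100)
    (h := s) (K := 799 + 1) (by omega) (by omega) (by omega) (by push_cast; omega) hS)
  have u1 := un_le P (fun i => BTc 0 s ((i : ℤ) * (s / 100)) (i * (s / 100) + s)) 799
    (x := P.L s (s + s / 50 + 2)) (fun i _ => by
      rw [P.B_eq']; exact P.L_mono geo (by omega) (by omega) (by omega))
  have u2 := un_le P (fun i => LRc 0 s ((i : ℤ) * (s / 100)) (i * (s / 100) + (s + 2 * (s / 100))))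
    799 (x := P.L s (s + s / 50 + 2)) (fun i _ => by
      rw [P.L_eq']; exact P.L_mono geo (by omega) (by omega) (by omega))
  have o1 := P.or_le (fun S => ∃ i : ℕ, i < 799 + 1 ∧
      BTc 0 s ((i : ℤ) * (s / 100)) (i * (s / 100) + s) S)
    (fun S => ∃ i : ℕ, i < 799 + 1 ∧
      LRc 0 s ((i : ℤ) * (s / 100)) (i * (s / 100) + (s + 2 * (s / 100))) S)
  rw [show ((799 : ℕ) : ℝ) + 1 = 800 by norm_num] at u1 u2
  have hL : P.p (LRc 0 s 0 (4 * s)) = P.L s (4 * s) := rfl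
  rw [hL] at h1
  linarith

end Vale.Agent.P159.TM.H285
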