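import Vale.Agent.P159.TM.H574.Circ
import Vale.Agent.P159.TM.H77.TailTor

/-!
# P159, T1, row R6: an open path of the torus between two boxes gives the event `Out` of the lift
-/

open Finset

set_option linter.unusedSectionVars false

namespace Vale.Agent.P159.TM.H285

open Vale.Agent.P145.FB
open Vale.Agent.P159.TM.H60
open Vale.Agent.P159.TM.H459 (tS tT dir)
open Vale.Agent.P159.TM.H103 (pr pr_e1 pr_e2)
open Vale.Agent.P159.TM.H504 (Bx)
open Vale.Agent.P159.TM.H77 (pt)

variable {N : ℕ} [NeZero N]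

theorem red_hor (i j : ℤ) : H426.red N (2 * i + 1, 2 * j) = pr N i j := by
  unfold H426.red pr
  have e1 : (2 * i + 1) / 2 = i := by omega
  have e2 : 2 * j / 2 = j := by omega
  dsimp only
  rw [e1, e2]

theorem red_ver (i j : ℤ) : H426.red N (2 * i, 2 * j + 1) = pr N i j := by
  unfold H426.red pr
  have e1 : 2 * i / 2 = i := by omega
  have e2 : (2 * j + 1) / 2 = j := by omega
  dsimp only
  rw [e1, e2]

theorem vert_mem {D : Spec.V N → ℤ} {T : Finset (Spec.E N)} {a b : ℤ} (h : 0 < D (pr N a b)) :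
    ((2 * a, 2 * b) : ℤ × ℤ) ∈ H426.Lf D T := by
  refine Or.inl ⟨?_, ?_, ?_⟩
  · dsimp only
    omega
  · dsimp only
    omega
  · rw [H574.red_even]
    exact h

theorem hor_mem {D : Spec.V N → ℤ} {T : Finset (Spec.E N)} {a b : ℤ} (h : (pr N a b, true) ∈ T) :
    ((2 * a + 1, 2 * b) : ℤ × ℤ) ∈ H426.Lf D T := by
  refine Or.inr (Or.inl ⟨?_, ?_, ?_⟩)
  · dsimp only
    omega
  · dsimp only
    omega
  · rw [red_hor]
    exact h

theorem ver_mem {D : Spec.V N → ℤ} {T : Finset (Spec.E N)} {a b : ℤ} (h : (pr N a b, false) ∈ T) :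
    ((2 * a, 2 * b + 1) : ℤ × ℤ) ∈ H426.Lf D T := by
  refine Or.inr (Or.inr ⟨?_, ?_, ?_⟩)
  · dsimp only
    omega
  · dsimp only
    omega
  · rw [red_ver]
    exact h

/-- lifting of an open path -/
theorem lift_path {D : Spec.V N → ℤ} {T : Finset (Spec.E N)}
    (hT : ∀ e ∈ T, 0 < D (tS e) ∧ 0 < D (tT e)) {i j : ℤ} (h0 : 0 < D (pr N i j))
    {w : Spec.V N} (h : Conn tS tT T (pr N i j) w) :
    ∃ a b : ℤ, pr N a b = w ∧ NC (H426.Lf D T) (2 * i, 2 * j) (2 * a, 2 * b) := by
  induction h with
  | refl => exact ⟨i, j, rfl, vert_mem h0, Relation.ReflTransGen.refl⟩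
  | @tail y z _ hyz ih =>
    obtain ⟨a, b, rfl, hp⟩ := ih
    have go : ∀ (m a' b' : ℤ) (n : ℤ), NN (2 * a, 2 * b) (m, n) → NN (m, n) (2 * a', 2 * b') →
        (m, n) ∈ H426.Lf D T → pr N a' b' = z → 0 < D z →
        ∃ a b : ℤ, pr N a b = z ∧ NC (H426.Lf D T) (2 * i, 2 * j) (2 * a, 2 * b) := by
      intro m a' b' n h1 h2 h3 h4 h5
      refine ⟨a', b', h4, hp.1, (hp.2.tail ⟨h1, h3⟩).tail ⟨h2, vert_mem ?_⟩⟩
      rw [h4]
      exact h5
    obtain ⟨⟨x, c⟩, he, h⟩ := hyz
    obtain ⟨hs, ht⟩ := hT _ he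
    rcases h with ⟨h1, h2⟩ | ⟨h1, h2⟩
    · change x = pr N a b at h1
      subst h1
      have hz : 0 < D z := h2 ▸ ht
      rcases c with _ | _
      · refine go (2 * a) a (b + 1) (2 * b + 1) ?_ ?_ (ver_mem he) ?_ hz
        · unfold NN
          simp
        · unfold NN
          dsimp only
          omega
        · rw [← pr_e2]
          exact h2
      · refine go (2 * a + 1) (a + 1) b (2 * b) ?_ ?_ (hor_mem he) ?_ hz
        · unfold NN
          simp
        · unfold NN
          dsimp only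
          omega
        · rw [← pr_e1]
          exact h2
    · change x = z at h1
      subst h1
      rcases c with _ | _
      · have hx : pr N a (b - 1) = x := by
          have h3 : x + dir N false = pr N a (b - 1) + dir N false := by
            rw [pr_e2, sub_add_cancel]
            exact h2
          exact (add_right_cancel h3).symm
        refine go (2 * a) a (b - 1) (2 * (b - 1) + 1) ?_ ?_ (ver_mem (hx ▸ he)) hx hs
        · unfold NN
          dsimp only
          omega
        · unfold NN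
          dsimp only
          omega
      · have hx : pr N (a - 1) b = x := by
          have h3 : x + dir N true = pr N (a - 1) b + dir N true := by
            rw [pr_e1, sub_add_cancel]
            exact h2
          exact (add_right_cancel h3).symm
        refine go (2 * (a - 1) + 1) (a - 1) b (2 * b) ?_ ?_ (hor_mem (hx ▸ he)) hx hs
        · unfold NN
          dsimp only
          omega
        · unfold NN
          dsimp only
          omega

/-- an open path of the torus between the boxes `[0, t)²` and `[3t, 4t) × [0, t)` lifts to the event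
`Out t` -/
theorem out_of_joins {D : Spec.V N → ℤ} {T : Finset (Spec.E N)} {t : ℕ} (ht : 1 ≤ t)
    (hN : 6 * t ≤ N) (hT : ∀ e ∈ T, 0 < D (tS e) ∧ 0 < D (tT e))
    (h : ∃ u ∈ (Bx 0 0 t).image (pt N), ∃ v ∈ (Bx (3 * t) 0 t).image (pt N),
      v ∈ clus tS tT T u) : H121.Out t (H426.Lf D T) := by
  obtain ⟨u, hu, v, hv, huv⟩ := h
  rw [mem_image] at hu hv
  obtain ⟨⟨i, j⟩, hij, rfl⟩ := hu
  obtain ⟨⟨i', j'⟩, hij', rfl⟩ := hv
  simp only [Bx, mem_product, mem_Ico] at hij hij'
  have hc := mem_clus.1 huv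
  -- the two points differ
  have key : ∀ a : ℤ, ((a : ℤ) : ZMod N) = ((i' : ℤ) : ZMod N) → 4 * (t : ℤ) ≤ 2 * a ∨
      4 * (t : ℤ) ≤ -(2 * a) := by
    intro a ha
    rw [ZMod.intCast_eq_intCast_iff_dvd_sub] at ha
    obtain ⟨k, hk⟩ := ha
    have hN' : (6 * (t : ℤ)) ≤ N := by exact_mod_cast hN
    rcases lt_trichotomy k 0 with h1 | h1 | h1
    · left
      have : (N : ℤ) * k ≤ (N : ℤ) * (-1) := by
        apply mul_le_mul_of_nonneg_left (by omega) (by omega)
      omega
    · left
      subst h1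
      omega
    · right
      have : (N : ℤ) * 1 ≤ (N : ℤ) * k := by
        apply mul_le_mul_of_nonneg_left (by omega) (by omega)
      omega
  have hne : pt N (i, j) ≠ pt N (i', j') := by
    intro h
    have h1 : ((i : ℤ) : ZMod N) = ((i' : ℤ) : ZMod N) := congrArg Prod.fst h
    rcases key i h1 with h2 | h2 <;> omega
  have h0 : 0 < D (pr N i j) := by
    rcases Relation.ReflTransGen.cases_head hc with h | ⟨z, h, -⟩
    · exact absurd h hne
    · obtain ⟨e, he, h⟩ := h
      rcases h with ⟨h, -⟩ | ⟨-, h⟩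
      · have := (hT e he).1
        rw [h] at this
        exact this
      · have := (hT e he).2
        rw [h] at this
        exact this
  obtain ⟨a, b, hab, hp⟩ := lift_path hT h0 hc
  refine ⟨_, _, hp, ?_, ?_⟩
  · rw [mem_rc]
    dsimp only
    omega
  · have h1 : ((a : ℤ) : ZMod N) = ((i' : ℤ) : ZMod N) := congrArg Prod.fst hab
    unfold H121.nrm
    dsimp only
    rcases key a h1 with h2 | h2 <;> omega

end Vale.Agent.P159.TM.H285
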